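import Claimed.Agent.R285.Sp.Closed
import Claimed.Agent.R285.Sp.CovCopy
import Claimed.Agent.R285.Sp.ConvCopy

/-!
# ROW 285, CORE DEFS 2b: the BANACH SPACES of activities (torus spaces, plane = bulk spaces `𝒜^bulk_{u,s}`)      (owner helper165)

Sources: [E] s3.1 ((3.5) symmetry class, (3.8) norm), [F] T4.6 (i), [B] s8.  Consumer: `Base/Flow.lean` (`Hist.Q j`, `Hist.T j h` must be complete complex normed spaces, all maps
`DifferentiableOn ℂ` on balls).

## Design
* **S1** with the sup norm D4' the activity norm IS an `ℓ^∞` norm: `‖K‖ = sup_i |ev K i|`, `i = (X, φ, f)`, `ev K i = A^{|X|} K (X, φ + f) / (W^κ e^V)(X, φ)` (`0` if `‖f‖ ≥ h₀`).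
  So an activity space is a CLOSED SUBMODULE of `lp (fun _ : Idx => ℂ) ∞`: norm, vector space structure and completeness of the ambient space come from Mathlib;
  the only things to prove are `*_isClosed` (locally uniform limits of holomorphic functions) and the dictionary `act`, `mk`.
* **S2 plane = copy-consistent families** (decision (b) of 13:40Z).  There is no infinite lattice.  A plane activity at a level is a family `(K_i)_i` over a family of tori `i`
  (all with the same block side and aligned origins) such that `K_i (X) = 0` unless `X` is UNWRAPPED (`Grid.Unwr c0`: image of a plane set `S` with `diam S + 2 c0 m < M`) and such that the `K_i` are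
  copies of each other (`Copy`).  Threshold stable under the RG step: `L (n' - c0 + 2) ≤ n - c0`.  The plane map is `Kprime` componentwise followed by `cutW`.
  Consistency is preserved because (1) polynomial kernels agree on unwrapped boxes (`cov_copy`), (2) a Gaussian expectation of a local function only sees the covariance on its dependence set (`conv_copy`).
* **LAYOUT (helper214, BP-PK-SPACES)**: the DEFINITIONS are in `R285/Sp/Defs.lean` (verbatim, Prop fields proved), the PROOFS in `R285/Sp/{Basic,Hol,Dict,Closed,CovCopy,ConvCopy}.lean`; this file only restates the exports under their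
  original names.  More tools there: `sp_limit`, `sp_act_of_ev`, `sp_ev_congr`, `sp_actNorm_eq`, `sp_act_cls`, `spPull`, `sp_taylor_le`, `sp_differentiableOn_of_tendsto`, strips/polydiscs (`sp_isOpen_strip`, `sp_mem_strip_add`, ..).
  `Act.Sym` (Base/RG) now asks the image point to lie in the strip of the image polymer (otherwise `actSp_act` is false).
* **S3 holomorphy of maps** between such spaces: locally bounded + every coordinate holomorphic (`lp_differentiableOn`), and `codRestrict` to a closed submodule.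
-/

set_option autoImplicit false

namespace Claimed.Agent.R285.RG

open scoped BigOperators ENNReal NNReal
open MeasureTheory

noncomputable section

variable {G : Geom}

/-! ## 1. One torus (or free square): `Idx`, `ev`, `Act.Cls`, `Amb`, `ActSp`, `ActSp0`, `Amb.act` are in `Sp/Defs.lean` -/

theorem actSp_isClosed (p : Par) (hA : 0 < p.A) (col R : ℕ) (g gs : Grid G) (V : Extra g) :
    IsClosed (ActSp p col R g gs V : Set (Amb (Idx g))) :=
  sp_actSp_isClosed p hA col R g gs V

theorem actSp0_isClosed (p : Par) (hA : 0 < p.A) (col R : ℕ) (g : Grid G) (V : Extra g) :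
    IsClosed (ActSp0 p col R g V : Set (Amb (Idx g))) :=
  sp_actSp0_isClosed p hA col R g V

theorem actSp_le (p : Par) (col R : ℕ) (g gs : Grid G) (V : Extra g) : ActSp p col R g gs V ≤ ActSp0 p col R g V :=
  sp_actSp_le p col R g gs V

/-- dictionary 1 -/
theorem actSp_act (p : Par) (hA : 0 < p.A) (col R : ℕ) (g gs : Grid G) (V : Extra g) (a : ActSp p col R g gs V) :
    (Amb.act p g V a.1).Cls p col R gs ∧ (∀ i, a.1 i = ev p g V (Amb.act p g V a.1) i) ∧
      actNorm p g V (Amb.act p g V a.1) = ENNReal.ofReal ‖a‖ :=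
  sp_actSp_act p hA col R g gs V a

/-- dictionary 2 -/
theorem actSp_mk (p : Par) (hA : 0 < p.A) (col R : ℕ) (g gs : Grid G) (V : Extra g) (K : Act g) (hK : K.Cls p col R gs)
    (hfin : actNorm p g V K ≠ ⊤) :
    ∃ a : ActSp p col R g gs V, (∀ i, a.1 i = ev p g V K i) ∧ ‖a‖ = (actNorm p g V K).toReal ∧
      ∀ X, ∀ z ∈ strip p.h0 g X, Amb.act p g V a.1 X z = K X z :=
  sp_actSp_mk p hA col R g gs V K hK hfin

/-! ## 2. The plane: copy-consistent families: `pdiam`, `Grid.foldS`, `Grid.Unwr`, `cutW`, `Copy`, `Lvl`, `FIdx`, `BulkSp`, `towerG`, `towerGrid` are in `Sp/Defs.lean` -/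

theorem bulkSp_isClosed (p : Par) (hA : 0 < p.A) (col R c0 : ℕ) {ι : Type} (F : ι → Lvl) :
    IsClosed (BulkSp p col R c0 F : Set (Amb (FIdx F))) :=
  sp_bulkSp_isClosed p hA col R c0 F

/-- the component on the torus `i`: a contraction `BulkSp → ActSp` -/
theorem bulkSp_comp (p : Par) (hA : 0 < p.A) (col R c0 : ℕ) {ι : Type} (F : ι → Lvl) (i : ι) :
    ∃ T : BulkSp p col R c0 F →L[ℂ] ActSp p col R (F i).g (F i).gs (F i).V, ‖T‖ ≤ 1 ∧ ∀ a x, (T a).1 x = a.1 ⟨i, x⟩ :=
  sp_bulkSp_comp p col R c0 F i

/-- the norm of a family is the supremum of the norms of its components -/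
theorem bulkSp_norm (p : Par) (col R c0 : ℕ) {ι : Type} (F : ι → Lvl) (a : BulkSp p col R c0 F) (C : ℝ) (hC : 0 ≤ C) :
    ‖a‖ ≤ C ↔ ∀ i x, ‖a.1 ⟨i, x⟩‖ ≤ C :=
  sp_bulkSp_norm p col R c0 F a C hC

/-! ### why consistency is preserved -/

/-- polynomial kernels agree on unwrapped boxes -/
theorem cov_copy (P : Polynomial ℝ) (G G' : Geom) (hG : G.bc = BC.per) (hG' : G'.bc = BC.per) (x y : ℤ × ℤ)
    (h : 2 * (max (x.1 - y.1).natAbs (x.2 - y.2).natAbs + P.natDegree) < min G.M G'.M) :
    cov G P (G.π x) (G.π y) = cov G' P (G'.π x) (G'.π y) :=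
  sp_cov_copy G G' hG hG' P x y (by have := min_le_left G.M G'.M; omega) (by have := min_le_right G.M G'.M; omega)

/-- a Gaussian expectation only sees the covariance on the dependence set -/
theorem conv_copy {G G' : Geom} (Γ : Matrix G.V G.V ℝ) (Γ' : Matrix G'.V G'.V ℝ) (hΓ : Γ.PosSemidef) (hΓ' : Γ'.PosSemidef)
    (D : Finset (ℤ × ℤ)) (hinj : Set.InjOn G.π D) (hinj' : Set.InjOn G'.π D)
    (hcov : ∀ x ∈ D, ∀ y ∈ D, Γ (G.π x) (G.π y) = Γ' (G'.π x) (G'.π y))
    (F : Fn G) (F' : Fn G') (hF : ∀ (φ : G.V → ℝ) (φ' : G'.V → ℝ), (∀ x ∈ D, φ (G.π x) = φ' (G'.π x)) → F (toC φ) = F' (toC φ')) :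
    conv Γ F 0 = conv Γ' F' 0 :=
  sp_conv_copy Γ Γ' hΓ hΓ' D hinj hinj' hcov F F' hF

/-! ## 3. Holomorphic maps into `ℓ^∞` -/

/-- locally bounded + coordinatewise holomorphic ⟹ holomorphic -/
theorem lp_differentiableOn {E ι : Type} [NormedAddCommGroup E] [NormedSpace ℂ E] (U : Set E) (hU : IsOpen U) (Φ : E → Amb ι)
    (hc : ∀ i, DifferentiableOn ℂ (fun x => Φ x i) U)
    (hb : ∀ x ∈ U, ∃ ε > 0, ∃ M : ℝ, ∀ y ∈ Metric.ball x ε, ‖Φ y‖ ≤ M) : DifferentiableOn ℂ Φ U :=
  sp_lp_differentiableOn U hU Φ hc hb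

/-- restriction of the codomain to a closed submodule -/
theorem differentiableOn_codRestrict {E W : Type} [NormedAddCommGroup E] [NormedSpace ℂ E] [NormedAddCommGroup W] [NormedSpace ℂ W]
    (S : Submodule ℂ W) (hS : IsClosed (S : Set W)) (U : Set E) (hU : IsOpen U) (Φ : E → S)
    (h : DifferentiableOn ℂ (fun x => (Φ x : W)) U) : DifferentiableOn ℂ Φ U :=
  sp_differentiableOn_codRestrict S hS U hU Φ h

end

end Claimed.Agent.R285.RG
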