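import Mathlib

/-!
# ROW 285, CORE DEFS 2 (post BP-DEFS-RG): finite-range covariances, blocks, polymers, regulators, norms, partition functional, RG map
                                                                                             (owner helper165)
Sources: [B] s4 (`toolkit.tex`), [B] s8.1 (`wh:covariances`, entry family), [B] s9.3 (`en:variational`), [F] s4.1-4.2, [E] s3.1.
ONLY definitions here (nothing is sorried).  The contracts about them are in `R285/Read/B4.lean`.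
VERSION 2 (13:20Z): `Fam` (general polynomial families), `Pair` without the exponent `k`, `Extra` regulators (`W^κ e^V`), `ShellOK`, radii as parameters, `Vobs`.
VERSION 3 (13:45Z): **D4' adopted**: activities are functions of COMPLEX fields, holomorphic in a strip; `ptNorm` = sup over complex polydiscs.  `LocalFn`, `Act.Ok`, `Desig.Ok` take `p : Par`.
  New: `toC`, `Fn`, `Hol`, `eBC`, `cBC`, `GridSym`, `Act.Even`, `Act.Sym`, `chiS`.

## Design decisions
* **D1 geometry.**  One finite vertex type `V = Fin M × Fin M` for the torus and for the free square of cells.  The boundary convention is a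
  FOLDING map `π : ℤ² → V` (periodic / even reflection across `-1/2`, `M - 1/2`).  All differences are differences of the lift `φ ∘ π` on `ℤ²`,
  evaluated at the canonical lift `ι v`: these ARE the "reflected difference conventions" of the paper (iterating a folded step would be wrong).
  No plane: "plane = torus on unwrapped neighbourhoods".  Dirichlet (odd reflection, only L4.2) has its own small block at the end.
* **D2 covariances** are `Polynomial.aeval (lap G) P` with `P` an explicit real polynomial (Fejér kernel through Chebyshev `T`).  A family `Fam` = (prefactor, `c`):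
  `Fam.toolkit s` = `((1 - γλ)/(1 + s), 16)` is [B] L4.1;  `Fam.entry` = `(1, 64)` is [B] (9.11) = [F] (ent:reference-split) for the four nearest steps (`Q = A/4`, `v² = 1/4`).
  Terminal covariances are characterised (`IsTerminal`), not constructed.  The block calculus only sees `ShellOK` (positivity, range, bounds).
* **D3 Gaussian expectation** = integral against Mathlib's `multivariateGaussian 0 Γ` pushed to `V → ℝ` (`gauss`, `conv`).
* **D4' norms** are `ℝ≥0∞`-valued.  Activities are functions `F : (V → ℂ) → ℂ`, `ℂ`-differentiable in the open strip `‖Im z‖_{m, D_m(X)} < h₀` (`Hol`), and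
  `ptNorm h₀ g X F φ = sup { |F (φ + f)| : f ∈ ℂ^V, ‖f‖_{m, D_m(X)} < h₀ }`, `φ` REAL (the regulator sits at the real centre).  This REPLACES the derivative-sum norm
  `∑_a h₀^a / a! ‖D^a F (φ)‖` of the papers.  Product inequality, coarsening, integration, translation are one-liners and need no regularity; [B] s9.5, [F] l.2356-2406, [E] l.463
  prove their derivative sums through complex translations + Cauchy + polarisation (`r₀ > 4 e h₀`), a step which disappears.  L4.5 uses Taylor on the REAL segment `t ψ`, `t ∈ [0,1]`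
  (regulators are monotone in `t`) and Cauchy in the one complex variable `s ↦ H (t w + s w)`; L4.6 is a genuine complex translation.  See B4.lean.
* **D5 grids** are abstract (`Grid`: a partition of each axis into `n` intervals) with the conditions `Grid.Ok`; `torusGrid`, `freeGrid` are the two
  constructions of the paper (full blocks; irregular end blocks of length in `[m, 2m)`).  `Pair` = a retained pair of levels `u`, `L u`, `L = 2^ℓ`.
* **D6 regulators**: `Wt = exp (κ U + V)`, `U` the regulator exponent of [B] (4.10), `V : Extra g` an additional non-negative quadratic exponent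
  (`0` in [B] s4-s8; the observation regulator `Vobs` in [B] s9, [F], [E]).
* **D7 the RG map** of P4.8 is an EXPLICIT finite formula `(K, F, a) ↦ K'` in three steps (`Ktil`, `Hrel`, `Kext`), over an ABSTRACT commutative
  `ℂ`-algebra `𝔸`, radii `r < R`, and abstract multiplicative sizes `SizeSys`: this covers the scalar representation (`𝔸 = Fn G = (V → ℂ) → ℂ`) and the
  "separately specified representations" of [B] s6-7.  Relocation uses MARKS: a configuration is `(W, T)`, `T ⊆ W`; a component of `W` without mark is a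
  residual, with one mark `b` it is the piece `F_{Y,b}` moved to `{b}`.
-/

set_option autoImplicit false

namespace Claimed.Agent.R285.RG

open scoped BigOperators ENNReal NNReal
open MeasureTheory ProbabilityTheory Polynomial

noncomputable section

/-! ## 0. Geometry -/

/-- boundary convention -/
inductive BC | per | free
  deriving DecidableEq

/-- a square of `M × M` cells -/
structure Geom where
  bc : BC
  M : ℕ
  hM : 0 < M

namespace Geom

variable (G : Geom)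

/-- vertices -/
abbrev V : Type := Fin G.M × Fin G.M

/-- one-dimensional folding `ℤ → [0, M)` -/
def fold (x : ℤ) : Fin G.M :=
  match G.bc with
  | BC.per => ⟨(x % G.M).toNat, by
      have h0 : (0 : ℤ) < G.M := by exact_mod_cast G.hM
      have h1 := Int.emod_nonneg x h0.ne'
      have h2 := Int.emod_lt_of_pos x h0
      omega⟩
  | BC.free => ⟨(if x % (2 * G.M) < G.M then x % (2 * G.M) else 2 * G.M - 1 - x % (2 * G.M)).toNat, by
      have h0 : (0 : ℤ) < 2 * G.M := by have := G.hM; omega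
      have h1 := Int.emod_nonneg x h0.ne'
      have h2 := Int.emod_lt_of_pos x h0
      split_ifs <;> omega⟩

/-- the folding map -/
def π (x : ℤ × ℤ) : G.V := (G.fold x.1, G.fold x.2)

/-- the canonical lift -/
def ι (v : G.V) : ℤ × ℤ := (((v.1 : ℕ) : ℤ), ((v.2 : ℕ) : ℤ))

/-- the lift of a field -/
def lift {α : Type} (φ : G.V → α) : ℤ × ℤ → α := fun x => φ (G.π x)

/-- sup-distance (periodic on the torus) -/
def dist (v w : G.V) : ℕ :=
  sInf {n : ℕ | ∃ x : ℤ × ℤ, G.π x = w ∧ n = max (x.1 - (G.ι v).1).natAbs (x.2 - (G.ι v).2).natAbs}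

end Geom

/-- the four unit directions -/
def dir : Fin 4 → ℤ × ℤ := ![(1, 0), (-1, 0), (0, 1), (0, -1)]

/-- difference `∇_e f (x) = f (x + e) - f x` -/
def dif {α : Type} [AddGroup α] (e : ℤ × ℤ) (f : ℤ × ℤ → α) : ℤ × ℤ → α := fun x => f (x + e) - f x

/-- iterated differences along a word of directions -/
def difs {α : Type} [AddGroup α] {r : ℕ} (a : Fin r → Fin 4) (f : ℤ × ℤ → α) : ℤ × ℤ → α :=
  (List.ofFn a).foldr (fun i g => dif (dir i) g) f

/-- `|∇^r f (x)|` : the maximum over all words of length `r` -/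
def nab {α : Type} [NormedAddCommGroup α] (r : ℕ) (f : ℤ × ℤ → α) (x : ℤ × ℤ) : ℝ≥0 :=
  (Finset.univ : Finset (Fin r → Fin 4)).sup fun a => ‖difs a f x‖₊

variable (G : Geom)

/-- the nearest-neighbour Laplacian `𝓛 = ∂^* ∂` (`= A` in [F]) with the boundary convention of `G` -/
def lap : Matrix G.V G.V ℝ := fun v w =>
  ∑ e : Fin 4, ((if v = w then 1 else 0) - (if G.π (G.ι v + dir e) = w then 1 else 0))

/-- the operator with multiplier `P` -/
def cov (P : ℝ[X]) : Matrix G.V G.V ℝ := Polynomial.aeval (lap G) P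

/-- mixed differences of a kernel, `∇_x^a ∇_y^c Γ (x, y)`, reflected conventions included -/
def kdif {r r' : ℕ} (a : Fin r → Fin 4) (c : Fin r' → Fin 4) (Γ : Matrix G.V G.V ℝ) (x y : ℤ × ℤ) : ℝ :=
  difs a (fun x' => difs c (fun y' => Γ (G.π x') (G.π y')) y) x

/-- centred Gaussian measure on fields with covariance `Γ` -/
def gauss (Γ : Matrix G.V G.V ℝ) : Measure (G.V → ℝ) :=
  (multivariateGaussian 0 Γ).map (MeasurableEquiv.toLp 2 (G.V → ℝ)).symm

/-- functions of a complex field -/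
abbrev Fn : Type := (G.V → ℂ) → ℂ

variable {G} in
/-- a real field as a complex field -/
def toC (φ : G.V → ℝ) : G.V → ℂ := fun v => (φ v : ℂ)

variable {G} in
/-- Gaussian convolution `F ↦ E F (· + ζ)`, `ζ` real -/
def conv (Γ : Matrix G.V G.V ℝ) (F : Fn G) : Fn G := fun z => ∫ ζ, F (z + toC ζ) ∂(gauss G Γ)

variable {G} in
/-- finite range -/
def FinRange (Γ : Matrix G.V G.V ℝ) (ρ : ℕ) : Prop := ∀ v w, ρ < G.dist v w → Γ v w = 0

/-! ## 1. Polynomial finite-range decompositions ([B] L4.1, (8.9), (9.11); [F] (ent:reference-split)) -/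

/-- `p = 32` -/
def pp : ℕ := 32
/-- `γ = 1/16` -/
def gam : ℝ := 1 / 16

/-- Fejér polynomial, `Fej t (cos z) = (sin (t z / 2) / sin (z / 2))²` -/
def Fej (t : ℕ) : ℝ[X] :=
  C (t : ℝ) + 2 * ∑ k ∈ Finset.Ico 1 t, C ((t : ℝ) - k) * Chebyshev.T ℝ (k : ℤ)

/-- `Q_t` (`= P_t` in [B] s8, [F]): `Q_t (cos z) = (sin (t z / 2) / (t sin (z / 2)))^{64}` -/
def Q (t : ℕ) : ℝ[X] := (C (((t : ℝ) ^ 2)⁻¹) * Fej t) ^ pp

/-- `λ ↦ Q_t (1 - λ / c)` -/
def Qs (c : ℝ) (t : ℕ) : ℝ[X] := (Q t).comp (1 - C (1 / c) * X)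

/-- a polynomial family of covariances: multipliers `pref (λ) / λ * (Q_m - Q_S) (1 - λ / c)` -/
structure Fam where
  pref : ℝ[X]
  c : ℝ

namespace Fam

/-- [B] Lemma 4.1 -/
def toolkit (s : ℝ) : Fam := ⟨C (1 + s)⁻¹ * (1 - C gam * X), 16⟩

/-- [B] (9.11), [F] (ent:reference-split), four nearest steps -/
def entry : Fam := ⟨1, 64⟩

variable (F : Fam)

/-- admissible families: constants of the estimates depend only on `(b₀, b₁, d, c)` -/
structure Adm (b0 b1 : ℝ) (d : ℕ) : Prop where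
  c_ge : 16 ≤ F.c
  b0_pos : 0 < b0
  deg : F.pref.natDegree ≤ d
  bd : ∀ x : ℝ, 0 ≤ x → x ≤ 8 → b0 ≤ F.pref.eval x ∧ F.pref.eval x ≤ b1

/-- the shell multiplier `Γ_m (λ)`, (rg:shell) -/
def shellP (m S : ℕ) : ℝ[X] := F.pref * divX (Qs F.c m - Qs F.c S)

/-- the accumulated multiplier `C_{<u} (λ)` -/
def lowP (u : ℕ) : ℝ[X] := F.pref * divX (1 - Qs F.c u)

/-- `λ Γ_* (λ)`, (rg:terminal-kernel) -/
def termP (u : ℕ) : ℝ[X] := F.pref * Qs F.c u

end Fam

/-- `Γ_m` -/
def shell (F : Fam) (m S : ℕ) : Matrix G.V G.V ℝ := cov G (F.shellP m S)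

/-- `C_{<u}` -/
def low (F : Fam) (u : ℕ) : Matrix G.V G.V ℝ := cov G (F.lowP u)

/-- the terminal covariance `C_{≥ u}` is characterised, not constructed -/
structure IsTerminal (F : Fam) (u : ℕ) (Γ : Matrix G.V G.V ℝ) : Prop where
  psd : Γ.PosSemidef
  const : Γ.mulVec (fun _ => 1) = 0
  eqn : ∀ f : G.V → ℝ, ∑ v, f v = 0 → (lap G * Γ).mulVec f = (cov G (F.termP u)).mulVec f

/-- all the bounds of Lemma 4.1 for one shell from `m` to `L m`, with explicit constants -/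
structure ShellBounds (C c : ℝ) (L m : ℕ) (Γ : Matrix G.V G.V ℝ) : Prop where
  pointwise : ∀ v w, |Γ v w| ≤ C * (1 + Real.posLog ((L * m : ℝ) / (m + G.dist v w)))
  diag : ∀ v, c * Real.log L ≤ Γ v v
  opnorm : ∀ f : G.V → ℝ, f ⬝ᵥ Γ.mulVec f ≤ C * (L * m : ℝ) ^ 2 * (f ⬝ᵥ f)
  /-- `‖∇^r Γ^{1/2}‖² ≤ C m^{-2(r-1)}`, `1 ≤ r ≤ 6`, as a bound of quadratic forms -/
  grad : ∀ r : ℕ, 1 ≤ r → r ≤ 6 → ∀ (a : Fin r → Fin 4) (u : G.V → ℝ),
    ∑ v, ∑ w, u v * u w * kdif G a a Γ (G.ι v) (G.ι w) ≤ C * ((m : ℝ) ^ (2 * (r - 1)))⁻¹ * ∑ v, u v ^ 2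
  mixed : ∀ r r' : ℕ, 1 ≤ r + r' → r + r' ≤ 12 → ∀ (a : Fin r → Fin 4) (b : Fin r' → Fin 4) (v w : G.V),
    |kdif G a b Γ (G.ι v) (G.ι w)| ≤ C * (((m : ℝ) + G.dist v w) ^ (r + r'))⁻¹

/-- the positive-order bounds of a terminal covariance at scale `m` -/
structure TermBounds (C : ℝ) (m : ℕ) (Γ : Matrix G.V G.V ℝ) : Prop where
  grad : ∀ r : ℕ, 1 ≤ r → r ≤ 6 → ∀ (a : Fin r → Fin 4) (u : G.V → ℝ),
    ∑ v, ∑ w, u v * u w * kdif G a a Γ (G.ι v) (G.ι w) ≤ C * ((m : ℝ) ^ (2 * (r - 1)))⁻¹ * ∑ v, u v ^ 2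
  diag : ∀ r : ℕ, 1 ≤ r → r ≤ 6 → ∀ (a : Fin r → Fin 4) (v : G.V),
    kdif G a a Γ (G.ι v) (G.ι v) ≤ C * ((m : ℝ) ^ (2 * r))⁻¹

/-! ## 2. Blocks and polymers ([B] s4.2) -/

/-- a grid of blocks of nominal side `m`: a product of two copies of a partition of `[0, M)` into `n` intervals -/
structure Grid (G : Geom) where
  m : ℕ
  n : ℕ
  blk1 : Fin G.M → Fin n

variable {G}

namespace Grid

variable (g : Grid G)

/-- block indices -/
abbrev I : Type := Fin g.n × Fin g.n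

/-- the block of a site -/
def blk (v : G.V) : g.I := (g.blk1 v.1, g.blk1 v.2)

/-- index distance on one axis (periodic on the torus) -/
def idist1 (a b : Fin g.n) : ℕ :=
  match G.bc with
  | BC.per => min ((a : ℤ) - b).natAbs (g.n - ((a : ℤ) - b).natAbs)
  | BC.free => ((a : ℤ) - b).natAbs

/-- sup index distance -/
def idist (a b : g.I) : ℕ := max (g.idist1 a.1 b.1) (g.idist1 a.2 b.2)

/-- the grid conditions of [B] s4.2: intervals, of length `m` (torus), in `[m, 2m)` (free; only end intervals are longer) -/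
structure Ok : Prop where
  pos : 0 < g.m
  mono : Monotone g.blk1
  surj : Function.Surjective g.blk1
  size : ∀ b : Fin g.n, g.m ≤ (Finset.univ.filter fun i => g.blk1 i = b).card ∧
    (Finset.univ.filter fun i => g.blk1 i = b).card < 2 * g.m
  full : ∀ b : Fin g.n, G.bc = BC.per ∨ (0 < (b : ℕ) ∧ (b : ℕ) + 1 < g.n) →
    (Finset.univ.filter fun i => g.blk1 i = b).card = g.m

/-- `X` is a polymer: non-empty and connected by steps of index length `≤ R` -/
def Conn (R : ℕ) (X : Finset g.I) : Prop :=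
  X.Nonempty ∧ ∀ a ∈ X, ∀ b ∈ X, Relation.ReflTransGen (fun u v => u ∈ X ∧ v ∈ X ∧ g.idist u v ≤ R) a b

open Classical in
/-- `Comp_R (V)` -/
def comps (R : ℕ) (V : Finset g.I) : Finset (Finset g.I) :=
  V.powerset.filter fun X => g.Conn R X ∧ ∀ a ∈ X, ∀ b ∈ V, g.idist a b ≤ R → b ∈ X

/-- `X` and `X'` have index distance `> d` -/
def Sep (d : ℕ) (X X' : Finset g.I) : Prop := ∀ a ∈ X, ∀ b ∈ X', d < g.idist a b

/-- index diameter -/
def idiam (X : Finset g.I) : ℕ := X.sup fun a => X.sup fun b => g.idist a b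

open Classical in
/-- blocks at index distance `≤ 2` -/
def collar (X : Finset g.I) : Finset g.I := Finset.univ.filter fun b => ∃ a ∈ X, g.idist a b ≤ 2

/-- the sites of a set of blocks -/
def sites (Y : Finset g.I) : Finset G.V := Finset.univ.filter fun v => g.blk v ∈ Y

/-- `D_m (X)` -/
def Dm (X : Finset g.I) : Finset G.V := g.sites (g.collar X)

/-- `X` lies in the bulk full-block grid -/
def Bulk (X : Finset g.I) : Prop :=
  G.bc = BC.per ∨ ∀ b ∈ X, 3 ≤ (b.1 : ℕ) ∧ (b.1 : ℕ) + 4 ≤ g.n ∧ 3 ≤ (b.2 : ℕ) ∧ (b.2 : ℕ) + 4 ≤ g.n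

end Grid

/-- the full-block grid of a torus, `m ∣ M` -/
def torusGrid (G : Geom) (m : ℕ) (h : m ∣ G.M) : Grid G where
  m := m
  n := G.M / m
  blk1 := fun i => ⟨i / m, Nat.div_lt_div_of_lt_of_dvd h i.2⟩

/-- the cuts of the free grid with offset `o` -/
def freeCuts (G : Geom) (m o : ℕ) : Finset ℕ :=
  (Finset.range (G.M + 1)).filter fun c => c % m = o % m ∧ m ≤ c ∧ c + m ≤ G.M

/-- the grid of the free square, irregular end blocks -/
def freeGrid (G : Geom) (m o : ℕ) : Grid G where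
  m := m
  n := (freeCuts G m o).card + 1
  blk1 := fun i => ⟨((freeCuts G m o).filter fun c => c ≤ (i : ℕ)).card,
    Nat.lt_succ_of_le (Finset.card_filter_le _ _)⟩

/-- nested grids -/
structure Nest (g g' : Grid G) where
  up1 : Fin g.n → Fin g'.n
  comm : ∀ i, g'.blk1 i = up1 (g.blk1 i)

namespace Nest

variable {g g' : Grid G} (N : Nest g g')

/-- the coarse block containing a fine block -/
def up (a : g.I) : g'.I := (N.up1 a.1, N.up1 a.2)

/-- the closure `\bar X` -/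
def cl (X : Finset g.I) : Finset g'.I := X.image N.up

end Nest

/-- `r₀ = 4 p + 20`, the temporary radius of [B] s4 -/
def r0 : ℕ := 4 * pp + 20
/-- `R = r₀ + 8`, the polymer radius of [B] s4 -/
def RR : ℕ := r0 + 8

/-- a retained pair of levels `u = g.m`, `L u = g'.m`, `L = 2^ℓ`, with clearance `D₀` -/
structure Pair (G : Geom) (D0 ℓ : ℕ) where
  g : Grid G
  g' : Grid G
  N : Nest g g'
  ok : g.Ok
  ok' : g'.Ok
  hS : g'.m = 2 ^ ℓ * g.m
  clear : D0 * g'.m < G.M

/-- everything the block calculus uses about the fluctuation covariance of a retained pair; range `≤ ρ` coarse blocks -/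
structure ShellOK (Ck ck : ℝ) (ρ : ℕ) {D0 ℓ : ℕ} (P : Pair G D0 ℓ) (Γ : Matrix G.V G.V ℝ) : Prop where
  psd : Γ.PosSemidef
  range : FinRange Γ (ρ * P.g'.m)
  bounds : ShellBounds G Ck ck (2 ^ ℓ) P.g.m Γ

/-! ## 3. Regulators ([B] (4.10), (9.9); [F] (eq:observation-regulator)) -/

variable (G)

/-- `g_D (φ)` -/
def gE (D : Finset G.V) (φ : G.V → ℝ) : ℝ :=
  (1 / 2) * ∑ v ∈ D, ∑ e : Fin 4, dif (dir e) (G.lift φ) (G.ι v) ^ 2

/-- `P_m (D, φ)` -/
def PE (m : ℕ) (D : Finset G.V) (φ : G.V → ℝ) : ℝ :=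
  m * ∑ v ∈ D, ∑ e : Fin 4, if G.π (G.ι v + dir e) ∈ D then 0 else dif (dir e) (G.lift φ) (G.ι v) ^ 2

variable {G}

/-- `T_m (D, φ)`, `D` the union of the blocks in `Y` -/
def TE (g : Grid G) (Y : Finset g.I) (φ : G.V → ℝ) : ℝ :=
  ∑ b ∈ Y, (g.m : ℝ) ^ 4 * (((g.sites {b}).sup fun v => nab 2 (G.lift φ) (G.ι v) : ℝ≥0) : ℝ) ^ 2

/-- `U_m (X, φ)` -/
def U (g : Grid G) (δ : ℝ) (X : Finset g.I) (φ : G.V → ℝ) : ℝ :=
  gE G (g.Dm X) φ + δ * PE G g.m (g.Dm X) φ + TE g (g.collar X) φ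

/-- `W_m^κ (X, φ)` -/
def W (g : Grid G) (δ κ : ℝ) (X : Finset g.I) (φ : G.V → ℝ) : ℝ := Real.exp (κ * U g δ X φ)

/-- an additional regulator exponent `V (X, φ)`: non-negative, quadratic, blind to constants, monotone, superadditive on `sep`-separated supports -/
structure Extra (g : Grid G) where
  V : Finset g.I → (G.V → ℝ) → ℝ
  sep : ℕ
  nonneg : ∀ X φ, 0 ≤ V X φ
  homog : ∀ X (t : ℝ) φ, V X (t • φ) = t ^ 2 * V X φ
  const : ∀ X φ (c : ℝ), V X (fun v => φ v + c) = V X φ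
  mono : ∀ X X' φ, X ⊆ X' → V X φ ≤ V X' φ
  add : ∀ X X' φ, g.Sep sep X X' → V X φ + V X' φ ≤ V (X ∪ X') φ

/-- no additional regulator -/
def Extra.zero (g : Grid G) : Extra g where
  V := fun _ _ => 0
  sep := 0
  nonneg := fun _ _ => le_rfl
  homog := fun _ _ _ => by simp
  const := fun _ _ _ => rfl
  mono := fun _ _ _ _ => le_rfl
  add := fun _ _ _ _ => by simp

/-- the total regulator `W_m^κ (X, φ) e^{V (X, φ)}` -/
def Wt (g : Grid G) (δ κ : ℝ) (V : Extra g) (X : Finset g.I) (φ : G.V → ℝ) : ℝ :=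
  Real.exp (κ * U g δ X φ + V.V X φ)

/-- the conclusions of [B] L4.4 / L9.2 for one retained pair: `cst` per fine block (`2` in L4.4), polymer radius `R`, threshold `n0` -/
structure RegStable (R n0 : ℕ) (cst : ℝ≥0∞) (δ κ : ℝ) {D0 ℓ : ℕ} (P : Pair G D0 ℓ) (Vf : Extra P.g) (Vc : Extra P.g')
    (Γ : Matrix G.V G.V ℝ) : Prop where
  main : ∀ (X : Finset P.g.I) (Y : Finset P.g'.I), P.N.cl X ⊆ Y → ∀ φ : G.V → ℝ,
    ∫⁻ ζ, ENNReal.ofReal (Wt P.g δ κ Vf X (φ + ζ)) ∂(gauss G Γ) ≤ cst ^ X.card * ENNReal.ofReal (Wt P.g' δ κ Vc Y φ)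
  small : ∀ X : Finset P.g.I, P.g.Conn R X → X.card ≤ n0 → ∀ φ : G.V → ℝ,
    ∫⁻ ζ, ENNReal.ofReal (Wt P.g δ κ Vf X (φ + ζ)) ∂(gauss G Γ)
      ≤ cst ^ X.card * ENNReal.ofReal (Wt P.g' δ (κ / 2) Vc (P.N.cl X) φ)

/-! ### the observation regulator -/

/-- `B_s` : the average over the cells of the grid `gs` -/
def cellAvg (gs : Grid G) (φ : G.V → ℝ) (c : gs.I) : ℝ := (∑ v ∈ gs.sites {c}, φ v) / ((gs.sites {c}).card : ℝ)

open Classical in
/-- the cells contained in `D` -/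
def cellsIn (gs : Grid G) (D : Finset G.V) : Finset gs.I := Finset.univ.filter fun c => gs.sites {c} ⊆ D

/-- the energy of the primary bonds with both endpoints in `D` (each bond once) -/
def bondE (D : Finset G.V) (u : G.V → ℝ) : ℝ :=
  (1 / 2) * ∑ v ∈ D, ∑ e : Fin 4, if G.π (G.ι v + dir e) ∈ D then dif (dir e) (G.lift u) (G.ι v) ^ 2 else 0

/-- the open observation energy `E_D^0 (y) = min_u { a⁻¹ ‖∇u‖²_D + ‖B_s u - y‖²_D }` -/
def openE (a : ℝ) (gs : Grid G) (D : Finset G.V) (y : gs.I → ℝ) : ℝ :=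
  ⨅ u : G.V → ℝ, a⁻¹ * bondE D u + ∑ c ∈ cellsIn gs D, (cellAvg gs u c - y c) ^ 2

/-- `V_u (X, φ)`, [B] (en:variational) = [F] (eq:observation-regulator).  The Cameron space of `C = C_{<u}` is parametrised by `ζ = C η`,
`‖ζ‖²_C = ⟨η, C η⟩`, so that no inverse is taken. -/
def Vobs (a hstar p1 : ℝ) (gs g : Grid G) (Clow : Matrix G.V G.V ℝ) (X : Finset g.I) (φ : G.V → ℝ) : ℝ :=
  (1 / 2) * ⨆ x : (G.V → ℝ) × (gs.I → ℝ),
    (hstar * openE a gs (g.Dm X) (fun c => cellAvg gs (fun v => Real.sqrt a * (φ v + Clow.mulVec x.1 v)) c + x.2 c)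
      - p1⁻¹ * (x.1 ⬝ᵥ Clow.mulVec x.1 + ∑ c, x.2 c ^ 2))

/-! ## 4. Analytic norms ([B] (rg:analytic-norm), (en:norm); [F] (eq:point-norm), (eq:activity-norm)) -/

/-- `‖f‖_{m, D_m(X)}` -/
def tnorm {α : Type} [NormedAddCommGroup α] (g : Grid G) (X : Finset g.I) (f : G.V → α) : ℝ≥0 :=
  (g.Dm X).sup fun v => max ‖f v‖₊
    (max ((g.m : ℝ≥0) * nab 1 (G.lift f) (G.ι v)) ((g.m : ℝ≥0) ^ 2 * nab 2 (G.lift f) (G.ι v)))

/-- the open strip `{z : ‖Im z‖_{m, D_m(X)} < h}` -/
def strip (h : ℝ≥0) (g : Grid G) (X : Finset g.I) : Set (G.V → ℂ) := {z | tnorm g X (fun v => (z v).im) < h}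

/-- holomorphic in the strip -/
def Hol (h : ℝ≥0) (g : Grid G) (X : Finset g.I) (F : Fn G) : Prop := DifferentiableOn ℂ F (strip h g X)

/-- the analytic point norm `|F|_{m, X, φ}` (D4'): sup over the complex polydisc of radius `h₀` around the real field `φ` -/
def ptNorm (h0 : ℝ≥0) (g : Grid G) (X : Finset g.I) (F : Fn G) (φ : G.V → ℝ) : ℝ≥0∞ :=
  ⨆ f : {f : G.V → ℂ // tnorm g X f < h0}, (‖F (toC φ + f.1)‖₊ : ℝ≥0∞)

/-- activities at the level `g` (scalar representation) -/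
abbrev Act (g : Grid G) : Type := Finset g.I → Fn G

/-- the fixed parameters, chosen in the order of the last paragraph of [B] s4: `δ`, `κ`, `h₀`, (`L`), `A`; `ω` = period of the constant mode -/
structure Par where
  δ : ℝ
  κ : ℝ
  h0 : ℝ≥0
  A : ℝ
  ω : ℝ

/-- positivity and regulator monotonicity (L4.4) at one level -/
structure Par.Adm (p : Par) (g : Grid G) : Prop where
  δ_pos : 0 < p.δ
  κ_pos : 0 < p.κ
  mono : ∀ X X' : Finset g.I, X ⊆ X' → ∀ φ, U g p.δ X φ ≤ U g p.δ X' φ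

/-- the size of one function on the support `X`: `sup_φ |F|_{m,X,φ} / (W^κ e^V) (X, φ)` -/
def fnSize (p : Par) (g : Grid G) (V : Extra g) (X : Finset g.I) (F : Fn G) : ℝ≥0∞ :=
  ⨆ φ : G.V → ℝ, ptNorm p.h0 g X F φ / ENNReal.ofReal (Wt g p.δ p.κ V X φ)

/-- `‖K‖_{m, A, V}` (`= ‖K‖_{m, A, κ}` for `V = Extra.zero g`) -/
def actNorm (p : Par) (g : Grid G) (V : Extra g) (K : Act g) : ℝ≥0∞ :=
  ⨆ X : Finset g.I, ENNReal.ofReal (p.A ^ X.card) * fnSize p g V X (K X)

/-- a function of the field: holomorphic in the strip, supported in `X` with `col` lattice steps of collar, `ω`-periodic.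
ALL conditions are imposed in the strip only: the values outside are junk (this makes the classes closed under limits in the norm). -/
structure LocalFn (p : Par) (col : ℕ) (g : Grid G) (X : Finset g.I) (F : Fn G) : Prop where
  hol : Hol p.h0 g X F
  loc : ∀ z ∈ strip p.h0 g X, ∀ z' ∈ strip p.h0 g X, (∀ v, (∃ w ∈ g.sites X, G.dist w v ≤ col) → z v = z' v) → F z = F z'
  per : ∀ z ∈ strip p.h0 g X, F (fun v => z v + (p.ω : ℂ)) = F z

/-- admissible activities -/
structure Act.Ok (p : Par) (col R : ℕ) {g : Grid G} (K : Act g) : Prop where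
  fn : ∀ X, LocalFn p col g X (K X)
  poly : ∀ X, ¬ g.Conn R X → K X = 0

/-- even activities -/
def Act.Even (h0 : ℝ≥0) {g : Grid G} (K : Act g) : Prop := ∀ X, ∀ z ∈ strip h0 g X, K X (-z) = K X z

/-- real on real fields -/
def Act.Real {g : Grid G} (K : Act g) : Prop := ∀ X (φ : G.V → ℝ), (K X (toC φ)).im = 0

/-- a symmetry of the lattice (translation, rotation, reflection) which preserves the grid `g` -/
structure GridSym (g : Grid G) where
  σ : Equiv.Perm G.V
  τ : Equiv.Perm g.I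
  ρ : Equiv.Perm (Fin 4)
  blk : ∀ v, g.blk (σ v) = τ (g.blk v)
  step : ∀ v e, σ (G.π (G.ι v + dir e)) = G.π (G.ι (σ v) + dir (ρ e))

/-- the symmetry preserves a second grid (the observation cells) -/
def GridSym.Pres {g : Grid G} (s : GridSym g) (gs : Grid G) : Prop :=
  ∃ τs : Equiv.Perm gs.I, ∀ v, gs.blk (s.σ v) = τs (gs.blk v)

/-- covariance `K (gX, gφ) = K (X, φ)`, `(gφ)(v) = φ (g⁻¹ v)`, for the symmetries compatible with `g` and `gs` (take `gs = g` if there are no cells) -/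
def Act.Sym (h0 : ℝ≥0) {g : Grid G} (gs : Grid G) (K : Act g) : Prop :=
  ∀ s : GridSym g, s.Pres gs → ∀ X, ∀ z ∈ strip h0 g X, (fun v => z (s.σ.symm v)) ∈ strip h0 g (X.map s.τ.toEmbedding) →
    K (X.map s.τ.toEmbedding) (fun v => z (s.σ.symm v)) = K X z

/-- the charge-`q` projection -/
def chargeProj (ω : ℝ) (q : ℤ) (F : Fn G) : Fn G := fun z =>
  ((1 / ω : ℝ) : ℂ) * ∫ t in (0 : ℝ)..ω,
    Complex.exp (-(Complex.I * q * ((2 * Real.pi / ω : ℝ) : ℂ) * t)) * F fun v => z v + (t : ℂ)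

/-- the two retained bulk singletons, [B] (wh:singletons), [F] (eq:singletons): `e_B^0` on real fields -/
def eB (g : Grid G) (B : g.I) (φ : G.V → ℝ) : ℝ := gE G (g.sites {B}) φ

/-- `c_B^α (φ) = u⁻² ∑_{x ∈ B} cos (α φ_x)` on real fields -/
def cB (g : Grid G) (α : ℝ) (B : g.I) (φ : G.V → ℝ) : ℝ := ((g.m : ℝ) ^ 2)⁻¹ * ∑ x ∈ g.sites {B}, Real.cos (α * φ x)

/-- `e_B^0` as an entire function -/
def eBC (g : Grid G) (B : g.I) : Fn G := fun z =>
  (1 / 2) * ∑ v ∈ g.sites {B}, ∑ e : Fin 4, dif (dir e) (G.lift z) (G.ι v) ^ 2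

/-- `c_B^α` as an entire function -/
def cBC (g : Grid G) (α : ℝ) (B : g.I) : Fn G := fun z =>
  (((g.m : ℝ) ^ 2)⁻¹ : ℝ) * ∑ x ∈ g.sites {B}, Complex.cos (α * z x)

/-- the entire cutoff of [F] s4.1, [E] (eq:entry-cutoff) -/
def chiS (s : ℝ) (z : ℂ) : ℂ :=
  (∫ t in (-s)..s, Complex.exp (-(z - t) ^ 2 / 2)) / ((∫ t in (-s)..s, Real.exp (-t ^ 2 / 2) : ℝ) : ℂ)

/-! ## 5. Localisation ([B] L4.5) -/

/-- signed displacement on one axis -/
def disp1 (G : Geom) (a b : Fin G.M) : ℤ :=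
  match G.bc with
  | BC.per => Int.bmod ((b : ℤ) - a) G.M
  | BC.free => (b : ℤ) - a

/-- `ℓ_i (v) = (v_i - v_{0,i}) / m` -/
def ell (g : Grid G) (v0 : G.V) (i : Fin 2) (v : G.V) : ℝ :=
  (if i = 0 then (disp1 G v0.1 v.1 : ℝ) else (disp1 G v0.2 v.2 : ℝ)) / g.m

/-- `D^X_{ij} = D² H (0) [ℓ_i, ℓ_j]` -/
def DX (g : Grid G) (v0 : G.V) (H : Fn G) (i j : Fin 2) : ℂ :=
  iteratedFDeriv ℂ 2 H 0 ![toC (ell g v0 i), toC (ell g v0 j)]

/-- `p_i (v, ε) = m ε_i ∇_{ε_i e_i} φ (v)`; `ε_i = +1` iff `ε i = false` -/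
def pvec (g : Grid G) (z : G.V → ℂ) (v : G.V) (ε : Fin 2 → Bool) (i : Fin 2) : ℂ :=
  g.m * (if ε i then -1 else 1) *
    dif (dir (if i = 0 then (if ε i then 1 else 0) else (if ε i then 3 else 2))) (G.lift z) (G.ι v)

/-- `Loc_{X,B} H` (rg:quadratic-localization) -/
def Loc (g : Grid G) (X : Finset g.I) (v0 : G.V) (H : Fn G) (B : g.I) : Fn G := fun z =>
  (1 / (X.card : ℂ)) * (H 0 + (1 / (2 * (g.m : ℂ) ^ 2)) * ∑ v ∈ g.sites {B},
    (1 / 4 : ℂ) * ∑ ε : Fin 2 → Bool, ∑ i, ∑ j, pvec g z v ε i * DX g v0 H i j * pvec g z v ε j)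

/-- the input hypothesis (rg:local-input) = "small linear input of size `u`" -/
structure LocalInput (p : Par) (col R n0 : ℕ) (g : Grid G) (V : Extra g) (X : Finset g.I) (F : Fn G) (u : ℝ≥0∞) :
    Prop where
  conn : g.Conn R X
  small : X.card ≤ n0
  fn : LocalFn p col g X F
  bd : fnSize p g V X F ≤ u

/-! ## 6. The exact local partition map ([B] P4.8, [F] P4.2), as an explicit finite formula -/

section abstractMap

variable {𝔸 : Type} [CommRing 𝔸] [Algebra ℂ 𝔸]

/-- the subset partition functional (rg:partition) -/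
def ZA (g : Grid G) (R : ℕ) (K : Finset g.I → 𝔸) : 𝔸 := ∑ V : Finset g.I, ∏ X ∈ g.comps R V, K X

/-- the designated pieces `F_{Y,b}` and scalars `a_b` -/
structure Desig (g' : Grid G) (𝔸 : Type) where
  F : Finset g'.I → g'.I → 𝔸
  a : g'.I → ℂ

variable {D0 ℓ : ℕ} (P : Pair G D0 ℓ) (r R : ℕ)

open Classical in
/-- STEP 1 (integration and reblocking): `K̃ (Y) = ∑_{V : \bar V = Y} E ∏_{X ∈ Comp_R V} K (X)` for `r`-connected `Y` -/
def Ktil (E : 𝔸 → 𝔸) (K : Finset P.g.I → 𝔸) : Finset P.g'.I → 𝔸 := fun Y =>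
  if P.g'.Conn r Y then
    ∑ V ∈ Finset.univ.filter (fun V : Finset P.g.I => P.N.cl V = Y), E (∏ X ∈ P.g.comps R V, K X)
  else 0

variable (g' : Grid G)

open Classical in
/-- one temporary object: component `Y` of `W`, marks `T`: residual (no mark in `Y`), assigned piece (one mark), `0` (more) -/
def tempObj (Kt : Finset g'.I → 𝔸) (d : Desig g' 𝔸) (T Y : Finset g'.I) : 𝔸 :=
  if Y ∩ T = ∅ then Kt Y - ∑ b ∈ Y, d.F Y b
  else ∑ b ∈ Y, if Y ∩ T = {b} then d.F Y b else 0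

open Classical in
/-- the new support of the marked configuration `(W, T)` -/
def newSupp (W T : Finset g'.I) : Finset g'.I :=
  T ∪ ((g'.comps r W).filter fun Y => Y ∩ T = ∅).biUnion id

open Classical in
/-- STEP 2 (relocation): `H (Z) = ∑_{T ⊆ W, supp (W, T) = Z} ∏_{Y ∈ Comp_r W} obj (Y)` for `R`-connected `Z` -/
def Hrel (Kt : Finset g'.I → 𝔸) (d : Desig g' 𝔸) : Finset g'.I → 𝔸 := fun Z =>
  if g'.Conn R Z then
    ∑ W : Finset g'.I, ∑ T ∈ W.powerset.filter (fun T => newSupp r g' W T = Z),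
      ∏ Y ∈ g'.comps r W, tempObj g' Kt d T Y
  else 0

open Classical in
/-- STEP 3 (extraction of constants): decorations `d_b = (1 + a_b)⁻¹ - 1` -/
def Kext (H : Finset g'.I → 𝔸) (d : Desig g' 𝔸) : Finset g'.I → 𝔸 := fun Y =>
  if g'.Conn R Y then
    ∑ Z ∈ Y.powerset, ∑ T ∈ Y.powerset.filter (fun T => Z ∪ T = Y),
      (∏ b ∈ T, ((1 + d.a b)⁻¹ - 1)) • ∏ X ∈ g'.comps R Z, H X
  else 0

/-- **the RG map** `K' = K' (K, F, a)` -/
def Kprime (E : 𝔸 → 𝔸) (K : Finset P.g.I → 𝔸) (d : Desig P.g' 𝔸) : Finset P.g'.I → 𝔸 :=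
  Kext R P.g' (Hrel r R P.g' (Ktil P r R E K) d) d

open Classical in
/-- the linear part of the map -/
def Klin (E : 𝔸 → 𝔸) (K : Finset P.g.I → 𝔸) (d : Desig P.g' 𝔸) : Finset P.g'.I → 𝔸 := fun Y =>
  if P.g'.Conn R Y then
    (∑ X ∈ Finset.univ.filter (fun X : Finset P.g.I => P.g.Conn R X ∧ P.N.cl X = Y), E (K X))
      - (∑ b ∈ Y, d.F Y b)
      + ∑ b ∈ Y, if Y = {b} then (∑ Y' : Finset P.g'.I, if b ∈ Y' then d.F Y' b else 0) - d.a b • 1 else 0
  else 0

/-- the pieces come from labels which are `r`-connected of index diameter `≤ 1` -/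
def Desig.Small (d : Desig g' 𝔸) : Prop := ∀ Y b, ¬ (g'.Conn r Y ∧ g'.idiam Y ≤ 1 ∧ b ∈ Y) → d.F Y b = 0

/-- abstract multiplicative sizes ("normalized size of a representation") : exactly what the spatial enumeration of P4.8 uses -/
structure SizeSys (E : 𝔸 → 𝔸) where
  /-- size of an element on a fine / coarse support -/
  szf : Finset P.g.I → 𝔸 → ℝ≥0∞
  szc : Finset P.g'.I → 𝔸 → ℝ≥0∞
  /-- separation needed for products -/
  sep : ℕ
  /-- cost of the integration per fine block -/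
  cst : ℝ≥0∞
  szc_zero : ∀ Y, szc Y 0 = 0
  szc_add : ∀ Y x y, szc Y (x + y) ≤ szc Y x + szc Y y
  szc_smul : ∀ Y (c : ℂ) x, szc Y (c • x) ≤ ‖c‖₊ * szc Y x
  szc_one : ∀ Y, szc Y 1 ≤ 1
  /-- regulator monotonicity -/
  szc_mono : ∀ Y Y' x, Y ⊆ Y' → szc Y' x ≤ szc Y x
  /-- products on separated supports (disjoint NON-ADJACENT collars, so that the regulators multiply) -/
  szc_mul : ∀ Y Y' x y, P.g'.Sep sep Y Y' → szc (Y ∪ Y') (x * y) ≤ szc Y x * szc Y' y
  /-- product inequality + regulator stability for a compatible family -/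
  integ : ∀ (V : Finset P.g.I) (K : Finset P.g.I → 𝔸) (Y : Finset P.g'.I), P.N.cl V ⊆ Y →
    szc Y (E (∏ X ∈ P.g.comps R V, K X)) ≤ ∏ X ∈ P.g.comps R V, (cst ^ X.card * szf X (K X))

variable {P R}

/-- `‖K‖_A` fine -/
def SizeSys.nf {E : 𝔸 → 𝔸} (S : SizeSys P R E) (A : ℝ≥0) (K : Finset P.g.I → 𝔸) : ℝ≥0∞ :=
  ⨆ X, (A : ℝ≥0∞) ^ X.card * S.szf X (K X)

/-- `‖K‖_A` coarse -/
def SizeSys.nc {E : 𝔸 → 𝔸} (S : SizeSys P R E) (A : ℝ≥0) (K : Finset P.g'.I → 𝔸) : ℝ≥0∞ :=
  ⨆ Y, (A : ℝ≥0∞) ^ Y.card * S.szc Y (K Y)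

/-- the rooted size of the designated data -/
def SizeSys.nd {E : 𝔸 → 𝔸} (S : SizeSys P R E) (d : Desig P.g' 𝔸) : ℝ≥0∞ :=
  ⨆ b : P.g'.I, (∑ Y : Finset P.g'.I, S.szc {b} (d.F Y b)) + (‖d.a b‖₊ : ℝ≥0∞)

end abstractMap

/-- admissible designated data in the scalar representation -/
structure Desig.Ok {g' : Grid G} (p : Par) (col r : ℕ) (d : Desig g' (Fn G)) : Prop where
  small : d.Small r g'
  fn : ∀ Y b, LocalFn p col g' {b} (d.F Y b)
  ne : ∀ b, 1 + d.a b ≠ 0

/-- the rooted size of the designated data in the scalar representation (hypothesis of P4.8) -/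
def Desig.size {g' : Grid G} (p : Par) (V : Extra g') (d : Desig g' (Fn G)) : ℝ≥0∞ :=
  ⨆ b : g'.I, (∑ Y : Finset g'.I, fnSize p g' V {b} (d.F Y b)) + (‖d.a b‖₊ : ℝ≥0∞)

/-! ## 7. The killed Green function ([B] L4.2) -/

/-- interior vertices of the spin square of side `M = 2 n`; `i : Fin (M - 1)` has coordinate `i + 1 ∈ (0, M)` -/
abbrev VD (M : ℕ) : Type := Fin (M - 1) × Fin (M - 1)

/-- the killed nearest-neighbour Laplacian -/
def lapD (M : ℕ) : Matrix (VD M) (VD M) ℝ := fun v w =>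
  if v = w then 4
  else if ((v.1 : ℤ) - w.1).natAbs + ((v.2 : ℤ) - w.2).natAbs = 1 then -1 else 0

/-- `G_n` -/
def greenD (M : ℕ) : Matrix (VD M) (VD M) ℝ := (lapD M)⁻¹

/-- odd reflection on one axis: sign and folded index -/
def foldD (M : ℕ) (x : ℤ) : Option (Bool × Fin (M - 1)) :=
  if h : 0 < x % (2 * M) ∧ x % (2 * M) < M then
    some (false, ⟨(x % (2 * M) - 1).toNat, by omega⟩)
  else if h' : (M : ℤ) < x % (2 * M) ∧ x % (2 * M) < 2 * M then
    some (true, ⟨(2 * M - x % (2 * M) - 1).toNat, by omega⟩)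
  else none

/-- the odd lift of a function of the interior vertices -/
def liftD (M : ℕ) (f : VD M → ℝ) (x : ℤ × ℤ) : ℝ :=
  match foldD M x.1, foldD M x.2 with
  | some (σ, i), some (τ, j) => (if σ = τ then 1 else -1) * f (i, j)
  | _, _ => 0

/-- sup distance of interior vertices -/
def distD {M : ℕ} (v w : VD M) : ℕ := max ((v.1 : ℤ) - w.1).natAbs ((v.2 : ℤ) - w.2).natAbs

/-- normalised sine modes of `(-1, 1)²` -/
def sineMode (k : ℕ × ℕ) (x : ℝ × ℝ) : ℝ :=
  Real.sin ((k.1 + 1) * Real.pi * (x.1 + 1) / 2) * Real.sin ((k.2 + 1) * Real.pi * (x.2 + 1) / 2)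

/-- Dirichlet eigenvalues of `-Δ` on `(-1, 1)²` -/
def sineEig (k : ℕ × ℕ) : ℝ := Real.pi ^ 2 / 4 * (((k.1 : ℝ) + 1) ^ 2 + ((k.2 : ℝ) + 1) ^ 2)

/-- the continuum Dirichlet Green kernel, through the heat kernel -/
def greenCont (x y : ℝ × ℝ) : ℝ :=
  ∫ t in Set.Ioi (0 : ℝ), ∑' k : ℕ × ℕ, Real.exp (-(sineEig k * t)) * sineMode k x * sineMode k y

/-- position of an interior vertex in `(-1, 1)²` -/
def posD (n : ℕ) (v : VD (2 * n)) : ℝ × ℝ := (((v.1 : ℕ) + 1 : ℝ) / n - 1, ((v.2 : ℕ) + 1 : ℝ) / n - 1)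

end

end Claimed.Agent.R285.RG
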