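import Claimed.Agent.R285.Defs

/-!
# ROW 285, CORE DEFS 1a: finite height laws, DEFINITIONS ONLY (owner helper115).   Documentation, rules and proof route: header of `Base/Height.lean`.

PROOF files of the layer `R285/Rsd` import THIS file (+ sibling proof files), not `Base/Height.lean`, as soon as their upstream results are proved
(so that `Base/Height.lean` can import them and replace its `sorry`s).
-/

set_option autoImplicit false

namespace Claimed.Agent.R285

open MeasureTheory Filter Topology

noncomputable section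

/-! ## 1. Abstract systems -/

/-- a finite height system in image form: a subgroup of `ℤ^E × ℝ^O`, with one temperature per Bessel coordinate. -/
structure LSys where
  E : Type
  O : Type
  [fE : Fintype E]
  [fO : Fintype O]
  b : E → ℝ
  L : AddSubgroup ((E → ℤ) × (O → ℝ))

attribute [instance] LSys.fE LSys.fO

namespace LSys

/-- the ambient group of affine data -/
abbrev Amb (S : LSys) : Type := (S.E → ℤ) × (S.O → ℝ)

variable (S : LSys)

/-- real coordinates -/
def real (z : S.Amb) : (S.E → ℝ) × (S.O → ℝ) := (fun e => (z.1 e : ℝ), z.2)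

/-- the weight `∏ p_{b_e}(z_e) · exp(-½ ∑ z_o²)` -/
def W (z : S.Amb) : ℝ := (∏ e, bes (S.b e) (z.1 e)) * Real.exp (-(∑ o, z.2 o ^ 2) / 2)

/-- unnormalised integral of `F` in the affine law with datum `α` -/
def Zf (α : S.Amb) (F : S.L → ℝ) : ℝ := ∑' z : S.L, F z * S.W ((z : S.Amb) + α)

/-- the partition sum `w(α)` -/
def w (α : S.Amb) : ℝ := S.Zf α fun _ => 1

/-- the partition sum with a real linear statistic in the exponent -/
def wT (α : S.Amb) (Y : S.L →+ ℝ) : ℝ := S.Zf α fun z => Real.exp (Y z)

/-- the partition sum with a real tilt `Y` and a character `X` -/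
def wC (α : S.Amb) (Y X : S.L →+ ℝ) : ℂ :=
  ∑' z : S.L, Complex.exp ((Y z : ℂ) + Complex.I * (X z : ℂ)) * (S.W ((z : S.Amb) + α) : ℂ)

/-- expectation in the affine law `α` tilted by `Y` -/
def Ev (α : S.Amb) (Y : S.L →+ ℝ) (F : S.L → ℝ) : ℝ :=
  S.Zf α (fun z => F z * Real.exp (Y z)) / S.wT α Y

/-- covariance in the affine law `α` tilted by `Y` -/
def Cv (α : S.Amb) (Y : S.L →+ ℝ) (X X' : S.L →+ ℝ) : ℝ :=
  S.Ev α Y (fun z => X z * X' z) - S.Ev α Y (fun z => X z) * S.Ev α Y fun z => X' z

/-- centred expectation -/
def E0 (F : S.L → ℝ) : ℝ := S.Ev 0 0 F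

/-- centred variance -/
def V0 (X : S.L →+ ℝ) : ℝ := S.Cv 0 0 X X

/-- centred characteristic coefficient `E e^{iX}` (real by inversion symmetry) -/
def phi (X : S.L →+ ℝ) : ℝ := S.E0 fun z => Real.cos (X z)

/-- properness: positive temperatures and `L` is a lattice (a `ℤ`-basis which is linearly independent over `ℝ`).  All sums below converge. -/
def Ok : Prop :=
  (∀ e, 0 < S.b e) ∧ ∃ (n : ℕ) (v : Fin n → S.Amb), LinearIndependent ℝ (fun i => S.real (v i)) ∧
    S.L = AddSubgroup.closure (Set.range v)

/-- the subsystem on a subgroup (hard centred pins, equalities, any sublattice) -/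
def sub (M : AddSubgroup S.Amb) : LSys := { E := S.E, O := S.O, b := S.b, L := S.L ⊓ M }

/-- the same system at other temperatures -/
def atb (b' : S.E → ℝ) : LSys := { E := S.E, O := S.O, b := b', L := S.L }

end LSys

/-- `Ref S S'`: `S'` has MORE precision than `S` (more bonds, more penalties, more constraints, fewer released constants). -/
structure LSys.Ref (S S' : LSys) where
  iE : S.E ↪ S'.E
  iO : S.O ↪ S'.O
  hb : ∀ e, S'.b (iE e) = S.b e
  map_mem : ∀ z ∈ S'.L, ((fun e => z.1 (iE e), fun o => z.2 (iO o)) : S.Amb) ∈ S.L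

namespace LSys.Ref

variable {S S' : LSys} (r : LSys.Ref S S')

/-- restriction of the coordinates -/
def res : S'.Amb →+ S.Amb where
  toFun z := (fun e => z.1 (r.iE e), fun o => z.2 (r.iO o))
  map_zero' := rfl
  map_add' _ _ := rfl

/-- restriction on the lattices -/
def psi : S'.L →+ S.L where
  toFun z := ⟨r.res z, r.map_mem z z.2⟩
  map_zero' := rfl
  map_add' _ _ := rfl

end LSys.Ref

/-! ## 3. Graph layer -/

/-- a finite height law on the graph `G`: centred constraint lattice `Λ` (pins, equalities, relative data) and observation rows `B` (acting on the physical height `2π h`). -/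
structure HLaw (G : HGraph) where
  Λ : AddSubgroup (G.V → ℤ)
  O : Type
  [fO : Fintype O]
  B : O → G.V → ℝ

attribute [instance] HLaw.fO

namespace HLaw

variable {G : HGraph} (H : HLaw G)

/-- `h ↦ (∇ h, B (2π h))` -/
def coord : (G.V → ℤ) →+ (G.E → ℤ) × (H.O → ℝ) where
  toFun h := (fun e => h (G.tgt e) - h (G.src e), fun o => ∑ v, H.B o v * (2 * Real.pi * (h v : ℝ)))
  map_zero' := by ext <;> simp
  map_add' h h' := by
    ext
    · simp; ring
    · simp [mul_add, Finset.sum_add_distrib]

/-- the abstract system of a height law at inverse temperature `b` -/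
def sys (b : ℝ) : LSys := { E := G.E, O := H.O, b := fun _ => b, L := H.Λ.map H.coord }

/-- `coord` with values in the ambient group of `sys` -/
def coordA (b : ℝ) : (G.V → ℤ) →+ (H.sys b).Amb := H.coord

/-- affine data: prescribed data `x` (on pins / equalities), integral connection `τ`, observation centres `c` -/
structure Aff where
  x : G.V → ℤ
  τ : G.E → ℤ
  c : H.O → ℝ

/-- the affine datum in the ambient group -/
def Aff.amb {H : HLaw G} (a : H.Aff) (b : ℝ) : (H.sys b).Amb :=
  H.coordA b a.x + (show (H.sys b).Amb from (a.τ, fun o => - a.c o))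

/-- the centred datum -/
def Aff.zero : H.Aff := ⟨0, 0, 0⟩

/-- partition sum in height variables: `∑_{h ∈ x + Λ} F(2π h) ∏_e p_b(∇_e h + τ_e) exp(-½ |B(2π h) - c|²)`.  Meaningful when `coord` is injective on `Λ`
(every constant pinned or confined; for a free component pin one representative). -/
def Z (b : ℝ) (a : H.Aff) (F : (G.V → ℝ) → ℝ) : ℝ :=
  ∑' h : H.Λ, F (fun v => 2 * Real.pi * (((h : G.V → ℤ) v + a.x v : ℤ) : ℝ)) *
    (H.sys b).W (H.coordA b (h : G.V → ℤ) + a.amb b)

/-- every constant is pinned or confined -/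
def Proper : Prop := ∀ h ∈ H.Λ, H.coord h = 0 → h = 0

/-- heights vanishing on `P` -/
def pinned (P : Set G.V) : AddSubgroup (G.V → ℤ) where
  carrier := {h | ∀ v ∈ P, h v = 0}
  zero_mem' := fun _ _ => rfl
  add_mem' := by
    intro h h' hh hh' v hv
    simp [hh v hv, hh' v hv]
  neg_mem' := by
    intro h hh v hv
    simp [hh v hv]

/-- the plain law: pins `P`, no observation -/
def plain (G : HGraph) (P : Set G.V) : HLaw G := { Λ := pinned P, O := Empty, B := fun o => o.elim }

end HLaw

end

end Claimed.Agent.R285
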