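import Claimed.Agent.R285.Defs
import Claimed.Agent.R285.Base.HeightDefs
import Claimed.Agent.R285.Rsd.Bes
import Claimed.Agent.R285.Rsd.KitGraph
import Claimed.Agent.R285.Rsd.CosetEvent
import Claimed.Agent.R285.Rsd.CosetFree
import Claimed.Agent.R285.Rsd.Temp

/-!
# ROW 285, CORE DEFS 1: finite height laws and the comparison rules (owner helper115)

ONE language for all height-side sections ([B]s2-3, [C]s2-4, [S]s2-6, [F]s2-3, [E]s2,5,6).

## 1. The abstract object: `LSys`
All finite height laws of the papers (Bessel bonds, lattice-Gaussian chains, hard pins with data, equalities, relative data, integral connections, quadratic penalties in real linear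
observations with arbitrary real centres, constants taken modulo translations or confined by observations, cuts) are instances of ONE object:

  a subgroup `L` of `ℤ^E × ℝ^O`, the weight `W(z) = ∏_{e ∈ E} p_{b_e}(z_e) · exp(-½ ∑_{o ∈ O} z_o²)`, an AFFINE DATUM `α ∈ ℤ^E × ℝ^O`, and the sum `w(α) = ∑_{z ∈ L} W(z + α)`.

For a graph: `L` = image of the centred constraint lattice `Λ ≤ ℤ^V` under `h ↦ (∇h, B (2π h))`.  Summing over the IMAGE implements the constant convention of the papers automatically: a constant which is seen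
neither by a bond nor by an observation is factored out, a constant which is confined by an observation is summed.  `α = (τ + ∇x, B (2π x) - c)`: connection `τ`, prescribed data `x`, observation centres `c`.
Tests (real linear statistics) are additive maps `X : L →+ ℝ` (so they automatically annihilate the released constants).
"`S'` has more precision than `S`" is `LSys.Ref S S'`: `S'` has more coordinates (more bonds, more penalties) and the restriction of `L'` to the old coordinates lies in `L` (more pins / equalities; fewer released constants).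
Cutting bonds, deleting regions, releasing pins, removing penalties, releasing curl / period / endpoint constraints are all `Ref`'s.  A lattice-Gaussian bond `exp(-κ j²/2)` is the Gaussian coordinate `√κ j`.
The temperature is part of the system (`b : E → ℝ`, one value per bond).

## 2. The rules (contracts `lsys_*`) = [B]L2.1 + [C]L2.2, L2.3, (2.2) + [S]L2.7-2.9 + [F]P2.2 + [E]L2.1, L2.2.   See the docstrings.

## 3. Graph layer: `HLaw`, `HLaw.Aff`, `HLaw.Z`, bridge `HLaw.Z_eq_w`.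

## PROOF ROUTE for the rules (packages BP-RSD-*; paper-free, NO Poisson summation is needed)
Notation `w(α,Y) = ∑_{z∈L} W(z+α) e^{Y z}`, `wC(α,Y,X) = ∑ W(z+α) e^{Y z + i X z}`, `c(X) = ∑ W(z) cos (X z) = w(0) φ(X)`.
(M) MASTER INEQUALITY `lsys_master`:  `|wC(α,Y,X)|² |wC(β,Y',X')|² ≤ w(α+β, Y+Y') w(α-β, Y-Y') c(X+X') c(X-X')`.
  (M1) `E = ∅`: `g(s) = exp(-|s|²/2)`, `g̃(s) = exp(-|s|²/4)`, `g(u) g(v) = g̃(u+v) g̃(u-v)`.  The map `(u,v) ↦ (p,q) = (u+v,u-v)` is a bijection of `L × L` onto `{(p,q) ∈ L × L : p - q ∈ 2L}`; `Y u + Y' v = ½(Y+Y') p + ½(Y-Y') q`.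
       With `z_d(s;ζ,ξ) = ∑_{p ∈ d+2L} g̃(p+s) e^{ζ p + i ξ p}`, `d ∈ L/2L`:  `wC(α,Y,X) wC(β,Y',X') = ∑_d z_d(α+β; (Y+Y')/2, (X+X')/2) z_d(α-β; (Y-Y')/2, (X-X')/2)` and `∑_d |z_d(s;ζ,ξ)|² = w(s,2ζ) c(2ξ)`.  Cauchy-Schwarz.
  (M2) Bessel coordinates, NO chain limit (helper200): the DOUBLING IDENTITY  `p_b(j) p_b(k) = e^{-2b} ∑_n (2b)^n/n! c_n(j+k) c_n(j-k)`,  `c_n(s) = 2^{-n} binom(n, (n+s)/2)` (`= 0` unless `s ≡ n mod 2`, `|s| ≤ n`)
       [`e^{b cos t₁ + b cos t₂} = exp(2b cos((t₁+t₂)/2) cos((t₁-t₂)/2))`, `cos^n σ = ∑_s c_n(s) e^{isσ}`; or directly: Vandermonde on the power series of `bes`].  So `W(u) W(v) = ∑_ν λ_ν G_ν(u+v) G_ν(u-v)`, `ν = (n_e)_e`, `λ_ν ≥ 0`,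
       and (M1) goes through verbatim with the index `(d, ν)` instead of `d` and the weights `λ_ν` in Cauchy-Schwarz.  (Chains are needed only where cables are used: [C]s3, [E]s5.)
(C) COSETS (no limits): for a subgroup `M ≤ L` sum the master inequality over `c ∈ L/M`, `c ↔ -c`, AM-GM:
     `w_M(α,Y)/w_M(0) ≤ w_L(α,Y)/w_L(0)`;  `w(M₁) w(M₂) ≤ w(M₁ ⊓ M₂) w(M₁ ⊔ M₂)`;  `|wC_M(c,0,X)| w_M(0) ≤ w_M(c) c_M(X)` (master with `β = 0`), hence `φ_L(X) ≤ φ_M(X)`.
     `w(α) ≤ w(0)`: `r = sup_α w(α)/w(0) < ∞` and `r⁴ ≤ r` (master with `β = α`).  New Bessel bond: product with a free bond (`∑_j p_b(j + τ) = 1`), then the subgroup `{j = d z}`.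
(D) CALCULUS: master with `(β,Y') = (0, sX)`, `s → 0`: `∂²_s log w(α, Y + sX) ≥ Var_0 X` = `lsys_var_affine`; integrate: `lsys_laplace_lower`; `∂²_s` of `Var_{sY} X ≥ Var_0 X`: `lsys_cumulant`;
     master with `α = β = 0`, `Y = Y' = 0`: `φ(X+Y) φ(X-Y) ≥ φ(X)² φ(Y)²`, `φ(2ξ) ≥ 0`, so `(log φ)'' ≥ - Var_0`: `lsys_phi_lower`, `lsys_phase_transfer`.
     New penalty `s z_o²`, `0 < s ≤ 1`: `d/ds log R(s) = -½ (E_num (z_o+α_o)² - E_0 z_o²) ≤ 0`; for `φ`: `E_X ℓ² = -(log φ)'' - ((log φ)')² ≤ Var_0 ℓ`; `s → 0` releases the constants confined only by `o` (`∑_k exp(-s(c + kβ)²/2) √s → const` uniformly in `c`).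
(B) TEMPERATURE: `p_{b'} = p_b * p_{b'-b}`: a bond at `b'` = two bonds in series; pinning the second increment is a `Ref`.  Or edge by edge: `d/db log(w(τ)/w(0)) = (w(τ+e)+w(τ-e))/(2 w(τ)) - w(e)/w(0) ≥ 0` by `lsys_four`.
-/

set_option autoImplicit false

namespace Claimed.Agent.R285

open MeasureTheory Filter Topology

noncomputable section

/-! ## 1. Abstract systems: see `Base/HeightDefs.lean` -/

/-! ## 2. The comparison rules -/

section Rules

variable (S : LSys)

/-- all exponential moments of all affine laws are finite -/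
theorem lsys_summable (hS : S.Ok) (α : S.Amb) (Y : S.L →+ ℝ) :
    Summable fun z : S.L => Real.exp (Y z) * S.W ((z : S.Amb) + α) := Rsd.lsys_summable S hS α Y

/-- **the master inequality** (RSD parity trick with shifts, real tilts and characters; see (M) in the header). -/
theorem lsys_master (hS : S.Ok) (α β : S.Amb) (Y Y' X X' : S.L →+ ℝ) :
    ‖S.wC α Y X‖ ^ 2 * ‖S.wC β Y' X'‖ ^ 2 ≤
      S.wT (α + β) (Y + Y') * S.wT (α - β) (Y - Y') * (S.w 0 * S.phi (X + X')) * (S.w 0 * S.phi (X - X')) :=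
  Rsd.lsys_master S hS α β Y Y' X X'

/-- **RSD four point inequality** ([B] (2.3), for Bessel + Gaussian coordinates). -/
theorem lsys_four (hS : S.Ok) (α β : S.Amb) :
    S.w α ^ 2 * S.w β ^ 2 ≤ S.w 0 ^ 2 * S.w (α + β) * S.w (α - β) := Rsd.lsys_four S hS α β

/-- positivity of all partition sums -/
theorem lsys_pos (hS : S.Ok) (α : S.Amb) (Y : S.L →+ ℝ) : 0 < S.wT α Y := Rsd.lsys_pos S hS α Y

/-- a shifted-to-centred ratio is at most one ([C]L2.2(ii)) -/
theorem lsys_le_centred (hS : S.Ok) (α : S.Amb) : S.w α ≤ S.w 0 := Rsd.lsys_le_centred S hS α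

/-- inversion symmetry -/
theorem lsys_neg (α : S.Amb) : S.w (-α) = S.w α := Rsd.lsys_neg S α

/-- exact reindexing (integral gauge change): a datum in `L` can be removed -/
theorem lsys_gauge (α : S.Amb) (g : S.L) : S.w (α + g) = S.w α := Rsd.lsys_gauge S α g

/-- **ratio monotonicity** ([C]L2.2(ii), [S]L2.7(ii), L2.8): a shifted-to-centred ratio, with a fixed real linear statistic in the exponent of the numerator,
decreases when precision is added to the affine and the centred coordinates.  (`Y = 0`: the untilted ratio.) -/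
theorem lsys_ratio_mono {S S' : LSys} (r : LSys.Ref S S') (hS : S.Ok) (hS' : S'.Ok) (α' : S'.Amb) (Y : S.L →+ ℝ) :
    S'.wT α' (Y.comp r.psi) / S'.w 0 ≤ S.wT (r.res α') Y / S.w 0 := Rsd.lsys_ratio_mono r hS hS' α' Y

/-- centred real moment generating functions decrease with precision ([C]L2.2(i)) -/
theorem lsys_mgf_mono {S S' : LSys} (r : LSys.Ref S S') (hS : S.Ok) (hS' : S'.Ok) (X : S.L →+ ℝ) :
    S'.E0 (fun z => Real.exp (X (r.psi z))) ≤ S.E0 fun z => Real.exp (X z) := Rsd.lsys_mgf_mono r hS hS' X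

/-- centred variances decrease with precision ([C]L2.2(i)) -/
theorem lsys_var_mono {S S' : LSys} (r : LSys.Ref S S') (hS : S.Ok) (hS' : S'.Ok) (X : S.L →+ ℝ) :
    S'.V0 (X.comp r.psi) ≤ S.V0 X := Rsd.lsys_var_mono r hS hS' X

/-- the variance in an affine law, also after a real linear tilt, dominates the centred variance ([C]L2.2(i)) -/
theorem lsys_var_affine (hS : S.Ok) (α : S.Amb) (Y X : S.L →+ ℝ) : S.V0 X ≤ S.Cv α Y X X :=
  Rsd.lsys_var_affine S hS α Y X

/-- `log E e^X ≥ ½ Var X` ([C]L2.2(i), [E](2.4)) -/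
theorem lsys_laplace_lower (hS : S.Ok) (X : S.L →+ ℝ) :
    S.V0 X / 2 ≤ Real.log (S.E0 fun z => Real.exp (X z)) := Rsd.lsys_laplace_lower S hS X

/-- paired cumulant ([B](2.5)) -/
theorem lsys_cumulant (hS : S.Ok) (X Y : S.L →+ ℝ) :
    0 ≤ S.E0 (fun z => X z ^ 2 * Y z ^ 2) - S.V0 X * S.V0 Y - 2 * S.Cv 0 0 X Y ^ 2 := Rsd.lsys_cumulant S hS X Y

/-- **reference cost** ([C]L2.3, [E]L2.2, [F]P2.2(iii)) in exact form: the centred transform of a flow is at most the transform of independent bonds. -/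
theorem lsys_reference (hS : S.Ok) (t : S.E → ℝ) :
    S.E0 (fun z => Real.exp (∑ e, t e * ((z : S.Amb).1 e : ℝ))) ≤ Real.exp (∑ e, S.b e * (Real.cosh (t e) - 1)) :=
  Rsd.lsys_reference S hS t

/-- characteristic coefficients are positive: `φ(X) ≥ exp(-Var X / 2)` ((2.2) of [C] started at the zero phase) -/
theorem lsys_phi_lower (hS : S.Ok) (X : S.L →+ ℝ) : Real.exp (-S.V0 X / 2) ≤ S.phi X :=
  Rsd.lsys_phi_lower S hS X

theorem lsys_phi_le_one (hS : S.Ok) (X : S.L →+ ℝ) : S.phi X ≤ 1 := Rsd.lsys_phi_le_one S hS X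

/-- characteristic coefficients increase with precision ([C]L2.2(iii)) -/
theorem lsys_phi_mono {S S' : LSys} (r : LSys.Ref S S') (hS : S.Ok) (hS' : S'.Ok) (X : S.L →+ ℝ) :
    S.phi X ≤ S'.phi (X.comp r.psi) := Rsd.lsys_phi_mono r hS hS' X

/-- four point inequality for the characteristic coefficients (= log-Hessian bound of [C]L2.2(iii) in finite form) -/
theorem lsys_phi_four (hS : S.Ok) (X Y : S.L →+ ℝ) : S.phi X ^ 2 * S.phi Y ^ 2 ≤ S.phi (X + Y) * S.phi (X - Y) :=
  Rsd.lsys_phi_four S hS X Y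

/-- phase transfer ([B](2.6), [C](2.2)) -/
theorem lsys_phase_transfer (hS : S.Ok) (X Y : S.L →+ ℝ) :
    Real.sqrt (-Real.log (S.phi (X + Y))) ≤ Real.sqrt (-Real.log (S.phi X)) + Real.sqrt (S.V0 Y / 2) :=
  Rsd.lsys_phase_transfer S hS X Y

/-- a characteristic coefficient on a translate is at most the centred one -/
theorem lsys_phi_affine (hS : S.Ok) (α : S.Amb) (X : S.L →+ ℝ) : ‖S.wC α 0 X‖ ≤ S.w α * S.phi X :=
  Rsd.lsys_phi_affine S hS α X

/-- the probability of centred lattice equalities (any subgroup `M`) increases with precision ([B]L2.1 end, [S]L2.7(i)) -/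
theorem lsys_event_mono {S S' : LSys} (r : LSys.Ref S S') (hS : S.Ok) (hS' : S'.Ok) (M : AddSubgroup S.Amb) :
    (S.sub M).w 0 / S.w 0 ≤ (S'.sub (M.comap r.res)).w 0 / S'.w 0 := Rsd.lsys_event_mono r hS hS' M

/-- monotonicity in the temperature ([E]L2.1 end) -/
theorem lsys_mgf_mono_b (hS : S.Ok) (b' : S.E → ℝ) (hbb : ∀ e, S.b e ≤ b' e) (X : S.L →+ ℝ) :
    S.E0 (fun z => Real.exp (X z)) ≤ (S.atb b').E0 fun z => Real.exp (X z) := Rsd.lsys_mgf_mono_b S hS b' hbb X

theorem lsys_var_mono_b (hS : S.Ok) (b' : S.E → ℝ) (hbb : ∀ e, S.b e ≤ b' e) (X : S.L →+ ℝ) :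
    S.V0 X ≤ (S.atb b').V0 X := Rsd.lsys_var_mono_b S hS b' hbb X

theorem lsys_phi_mono_b (hS : S.Ok) (b' : S.E → ℝ) (hbb : ∀ e, S.b e ≤ b' e) (X : S.L →+ ℝ) :
    (S.atb b').phi X ≤ S.phi X := Rsd.lsys_phi_mono_b S hS b' hbb X

/-- a subsystem of a proper system is proper -/
theorem lsys_ok_sub (hS : S.Ok) (M : AddSubgroup S.Amb) : (S.sub M).Ok := Rsd.lsys_ok_sub S hS M

end Rules

/-! ## 3. Graph layer (definitions in `Base/HeightDefs.lean`) -/

namespace HLaw

variable {G : HGraph} (H : HLaw G)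

/-- bridge between the two forms -/
theorem Z_eq_w (hP : H.Proper) (b : ℝ) (a : H.Aff) : H.Z b a (fun _ => 1) = (H.sys b).w (a.amb b) := Rsd.hlaw_Z_eq_w H hP b a

/-- without observations every law on a finite graph is proper (the image lattice lies in `ℤ^E`) -/
theorem ok_of_isEmpty [IsEmpty H.O] (b : ℝ) (hb : 0 < b) : (H.sys b).Ok := Rsd.hlaw_ok_of_isEmpty H b hb

/-- with observations: proper when the real-linear extension of `coord` is injective on the REAL span of `Λ` (all constants pinned or confined; on a free component pin one representative: the image lattice does not change). -/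
theorem ok_of_real_injective (b : ℝ) (hb : 0 < b)
    (hinj : ∀ g : G.V → ℝ, g ∈ Submodule.span ℝ ((fun h : G.V → ℤ => fun v => (h v : ℝ)) '' (H.Λ : Set (G.V → ℤ))) →
      (∀ e, g (G.tgt e) = g (G.src e)) → (∀ o, ∑ v, H.B o v * g v = 0) → g = 0) : (H.sys b).Ok :=
  Rsd.hlaw_ok_of_real_injective H b hb hinj

end HLaw

/-- bridge to `Top.lean`: `HGraph.Zs` with zero penalty is `HLaw.Z` of the plain law -/
theorem hgraph_Zs_eq (G : HGraph) (b : ℝ) (P : Set G.V) (τ : G.E → ℤ) (F : (G.V → ℝ) → ℝ) :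
    G.Zs b P τ 0 F = (HLaw.plain G P).Z b ⟨0, τ, fun o => o.elim⟩ F := Rsd.hgraph_Zs_eq G b P τ F

/-! ## 4. The Bessel weight

PROVED in `R285/Rsd/Bes.lean` (leaf L-BES, helper90), imported above; statements verbatim:
`bes_pos`, `bes_neg`, `bes_summable_exp`, `bes_mgf`, `bes_char`, `bes_fourier`, `bes_conv`;
stronger forms for ALL real `b`: `bes_hasSum_cexp` (complex generating function), `bes_hasSum_exp`, `bes_hasSum_cos`, `bes_summable_abs`, `bes_nonneg`,
`bes_integral_mul`, `bes_fourier_c`, `bes_conv_hasSum`. -/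

end

end Claimed.Agent.R285
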