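import Claimed.Agent.R285.Defs
import Claimed.Agent.R285.E2.Torus

/-!
# ROW 285, CORE DEFS 3: the FLOW INTERFACE between the RG construction and the dynamics        (owners helper27, helper94)

Sources: [E] Section 3 (P3.1 entry, P3.2 map, P3.3 read-outs, L3.4 cutoff error, L3.5 grid comparison), which summarises
[F] Sections 4-5.1 and [B] Sections 4, 8, L9.2.

## What this file is
The ONLY contract between
* the CONSTRUCTION side  ([B]s4, s8, L9.2; [F]s4 (bulk part of T4.6), s5.1 (L5.2, L5.3); [E]P3.1-3.3, L3.4, L3.5): it has to PRODUCE `rg_system`;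
* the DYNAMICS side  ([F]s5.2-5.4 + [E]P3.6 = critical histories, post F5;  [E]s4 = response and passage, post E4): it only CONSUMES `rg_system`
  and the physical torus inputs `tor_*` below.
Activity spaces are ABSTRACT complex Banach spaces.  Nothing on the dynamics side knows polymers, regulators or height laws.

## Design decisions
* **F1** the state of the plane history is kept in NORMAL coordinates `Y = (x, y, Q)`, `x = b_* u`, `y = √(b_* H) Z` ([E] (3.12)); the unbalanced scalars `(t, z)` are an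
  analytic function `sc j Y` ([E] (3.13)).  The original map `Φ_j` on `(t, z, R)` does not occur: the construction side proves that `sc`, `N` describe it.
* **F2** NO differentiated bounds in the interface: every map is holomorphic on a fixed COMPLEX ball and bounded there by the displayed orders; all
  "corresponding Taylor bounds" follow by Cauchy estimates along complex lines with radii adapted to the point (see `E4.lean`, package CAUCHY).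
* **F3** the torus behind the stop `h` is driven by the plane scalars (copying); its remainder has its own space `T j h` and map `Ψ j h`.
* **F4** the physical content is split in two: `cV h b`, `cP h b` are the NORMALISED CUTOFF observables
  `(\hat Var_b X_{n,s} - ‖f‖²)/β²`, `e^{(s/n)²/2} \hat E_b e^{i \bar η}` of [E] (4.9); (a) they ARE the read-outs of the terminal state as long as the history stays in the
  domain (P3.3); (b) they differ from `torVar`, `torPhase` by errors which are small AND Lipschitz-small in `b` (L3.4, L3.5).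
* **F5** quantifiers: map constants `MapC` first; then for every entry size `ρe` the entry constants `EntC` (they depend on `R₀`), then all admissible `s ≥ s0`.
* absolute index `j`; block side `L^j`; stopped torus `n_h = D0 L^h`; stage `i` of a history is the absolute index `j0 + i`.
* **F6** (helper94, 14:10Z, from the reading of [F] s5) three additions, all consumed by F5 = [F] L5.2, L5.5, L5.6, L5.7:
  (1) PARITY: the half-period shift `φ ↦ φ + π/α` acts by isometric involutions `σQ`, `σT`; `y`, `z` are odd; all maps are equivariant;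
  (2) the MIXED phase read-out `rM` at the fixed real source `w0` ([F] (trj:mixed-diagnostic)): it is what confines `z`.  `torPhase b_c n → 0` is NOT an available input
      ([C] T2.5 is for free squares, periodic bonds increase characteristic coefficients): it is a corollary (`F5.tor_crit_phase'`);
  (3) the PURE GAUSSIAN TORI `G j h x` behind every stop and their exact variance response ([F] (trj:pure-response)).
  Also: `Even D0` (first cosine and mean phase decouple at first order on even tori), `cmpV'` (grid error with an entry-independent constant), and the entry must beat the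
  early stages: `ρe * P0 ≤ δ`, `1 / P0 ≤ δ` in `rg_system`.
* **F7** (decision D5 of helper27, 14:55Z) the rate `j⁻²` of [F] L5.3 is not proved; the bounded partial sums of `H_j - H`, `b_j - b_*` are absorbed in the chart
  (`u~ = u + sx_j Z²`, `Z~ = Z + sy_j u Z`).  `N_x`, `N_y`, `eord` stay verbatim; price: `sc_t`, `sc_z` have the error `wn Y ^ 2` instead of `‖Y.1‖ ^ 2`.
-/

set_option autoImplicit false

namespace Claimed.Agent.R285.Flow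

open Filter Topology Claims.C0459

noncomputable section

/-- constants of the local map, fixed FIRST -/
structure MapC where
  L : ℕ
  D0 : ℕ
  /-- radius of the complex domain of all maps -/
  ρ : ℝ
  θ : ℝ
  C : ℝ
  c : ℝ
  /-- the constant `H` of [E] (3.12) -/
  Hq : ℝ
  /-- the entry-independent phase multipliers `p_h` -/
  p : ℕ → ℝ
  /-- the fixed real source of the mixed diagnostic -/
  w0 : ℝ
  hL : 2 ≤ L
  hD : 1 ≤ D0
  hD2 : Even D0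
  hw0 : w0 ≠ 0
  hρ : 0 < ρ
  hθ0 : 0 < θ
  hθ : θ < 1
  hC : 1 ≤ C
  hc : 0 < c
  hH : 0 < Hq
  hp : ∀ h, c ≤ p h ∧ p h ≤ C

/-- `b_* = 2 log L` -/
def MapC.bs (κ : MapC) : ℝ := 2 * Real.log κ.L

/-- the side of the torus stopped at `h` -/
def MapC.n (κ : MapC) (h : ℕ) : ℕ := κ.D0 * κ.L ^ h

/-- constants which depend on the entry parameter `R₀` -/
structure EntC where
  /-- `q R₀` -/
  q0 : ℕ
  /-- `P₀ = R₀^5` -/
  P0 : ℕ
  /-- radius `c / s²` of the parameter disk -/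
  c : ℝ
  C : ℝ
  s0 : ℕ
  hq : 1 ≤ q0
  hP : 1 ≤ P0
  hc : 0 < c
  hC : 1 ≤ C

/-- the data attached to ONE observation side -/
structure Hist where
  /-- absolute entry index, `q R₀ s = L^{j0}` -/
  j0 : ℕ
  /-- plane transverse remainders `Q` at the absolute index `j` -/
  Q : ℕ → Type
  [nQ : ∀ j, NormedAddCommGroup (Q j)]
  [sQ : ∀ j, NormedSpace ℂ (Q j)]
  [cQ : ∀ j, CompleteSpace (Q j)]
  /-- unbalanced torus remainders at the index `j` behind the stop `h` -/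
  T : ℕ → ℕ → Type
  [nT : ∀ j h, NormedAddCommGroup (T j h)]
  [sT : ∀ j h, NormedSpace ℂ (T j h)]
  [cT : ∀ j h, CompleteSpace (T j h)]
  /-- the plane map in normal coordinates `(x, y, Q)` -/
  N : ∀ j, ℂ × ℂ × Q j → ℂ × ℂ × Q (j + 1)
  /-- the unbalanced scalars `(t, z)` -/
  sc : ∀ j, ℂ × ℂ × Q j → ℂ × ℂ
  /-- the torus remainder map, driven by `(t, z)` -/
  Ψ : ∀ j h, (ℂ × ℂ) × T j h → T (j + 1) h
  /-- entries, as functions of the complex inverse temperature -/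
  Y0 : ℂ → ℂ × ℂ × Q j0
  T0 : ∀ h, ℂ → T j0 h
  /-- terminal read-outs -/
  rV : ∀ h, (ℂ × ℂ) × T h h → ℂ
  rP : ∀ h, (ℂ × ℂ) × T h h → ℂ
  /-- background and multipliers of the normalised read-outs -/
  v0 : ℕ → ℝ
  kV : ℕ → ℝ
  kP : ℕ → ℝ
  /-- the normalised cutoff observables on the torus `n_h` -/
  cV : ℕ → ℝ → ℝ
  cP : ℕ → ℝ → ℝ
  /-- the half-period shift `φ ↦ φ + π/α` on plane and torus remainders -/
  σQ : ∀ j, Q j →L[ℂ] Q j
  σT : ∀ j h, T j h →L[ℂ] T j h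
  /-- the remainder of the pure Gaussian torus behind the stop `h`, as a function of `x = b_* u` -/
  G : ∀ j h, ℂ → T j h
  /-- the eigenvalue of `𝖯_m` on the first cosine of the torus `n_h` -/
  pG : ℕ → ℝ
  /-- the mixed phase read-out at the fixed source `w0`, its multiplier, the normalised cutoff observable -/
  rM : ∀ h, (ℂ × ℂ) × T h h → ℂ
  kM : ℕ → ℝ
  cM : ℕ → ℝ → ℝ

attribute [instance] Hist.nQ Hist.sQ Hist.cQ Hist.nT Hist.sT Hist.cT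

namespace Hist

variable (H : Hist)

/-- the plane history at the parameter `b`; stage `i` has absolute index `j0 + i` -/
def st (b : ℂ) : ∀ i : ℕ, ℂ × ℂ × H.Q (H.j0 + i)
  | 0 => H.Y0 b
  | i + 1 => H.N (H.j0 + i) (st b i)

/-- the torus remainder behind the stop `h` -/
def tor (b : ℂ) (h : ℕ) : ∀ i : ℕ, H.T (H.j0 + i) h
  | 0 => H.T0 h b
  | i + 1 => H.Ψ (H.j0 + i) h (H.sc (H.j0 + i) (H.st b i), tor b h i)

/-- the full torus state at stage `i` behind the stop `h` -/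
def ts (b : ℂ) (h i : ℕ) : (ℂ × ℂ) × H.T (H.j0 + i) h := (H.sc (H.j0 + i) (H.st b i), H.tor b h i)

/-- `x_j`, `y_j`, `‖Q_j‖` -/
def x (b : ℂ) (i : ℕ) : ℂ := (H.st b i).1
def y (b : ℂ) (i : ℕ) : ℂ := (H.st b i).2.1
def q (b : ℂ) (i : ℕ) : ℝ := ‖(H.st b i).2.2‖

/-- all plane stages `≤ i`, and all torus stages `≤ i` behind the stop `h`, lie in the ball of radius `r` -/
def Inside (r : ℝ) (b : ℂ) (h i : ℕ) : Prop := ∀ i' ≤ i, ‖H.st b i'‖ < r ∧ ‖H.ts b h i'‖ < r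

end Hist

/-- `|W| = max (|x|, |y|)` -/
def wn {E : Type} (Y : ℂ × ℂ × E) : ℝ := max ‖Y.1‖ ‖Y.2.1‖

/-- the order of the scalar error in [E] (3.14) -/
def eord {E : Type} [NormedAddCommGroup E] (j : ℕ) (Y : ℂ × ℂ × E) : ℝ :=
  wn Y ^ 2 / (j : ℝ) ^ 2 + wn Y ^ 3 + (wn Y + ‖Y.2.2‖) * ‖Y.2.2‖

/-- even part with respect to an involution -/
def ev {E : Type} [AddCommGroup E] [Module ℂ E] (σ : E → E) (q : E) : E := (1 / 2 : ℂ) • (q + σ q)
/-- odd part -/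
def od {E : Type} [AddCommGroup E] [Module ℂ E] (σ : E → E) (q : E) : E := (1 / 2 : ℂ) • (q - σ q)

/-- half-period action on plane states -/
def parY {E : Type} (σ : E → E) (Y : ℂ × ℂ × E) : ℂ × ℂ × E := (Y.1, -Y.2.1, σ Y.2.2)
/-- half-period action on torus states -/
def parX {E : Type} (σ : E → E) (X : (ℂ × ℂ) × E) : (ℂ × ℂ) × E := ((X.1.1, -X.1.2), σ X.2)

/-- [E] P3.2 = [F] (93)-(101), L5.2, L5.3 (+ [B] P8.3, L9.2): the map -/
structure MapOK (κ : MapC) (H : Hist) : Prop where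
  N_an : ∀ j, H.j0 ≤ j → DifferentiableOn ℂ (H.N j) (Metric.ball 0 κ.ρ)
  N_x : ∀ j, H.j0 ≤ j → ∀ Y ∈ Metric.ball (0 : ℂ × ℂ × H.Q j) κ.ρ,
    ‖(H.N j Y).1 - (Y.1 - Y.2.1 ^ 2)‖ ≤ κ.C * eord j Y
  N_y : ∀ j, H.j0 ≤ j → ∀ Y ∈ Metric.ball (0 : ℂ × ℂ × H.Q j) κ.ρ,
    ‖(H.N j Y).2.1 - (Y.2.1 - Y.1 * Y.2.1)‖ ≤ κ.C * eord j Y
  N_q : ∀ j, H.j0 ≤ j → ∀ Y ∈ Metric.ball (0 : ℂ × ℂ × H.Q j) κ.ρ,
    ‖(H.N j Y).2.2‖ ≤ κ.θ * ‖Y.2.2‖ + κ.C * wn Y ^ 2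
  /-- the pure Gaussian curve is fixed -/
  N_g : ∀ j, H.j0 ≤ j → ∀ u : ℂ, ‖u‖ < κ.ρ → H.N j (u, 0, 0) = (u, 0, 0)
  sc_an : ∀ j, H.j0 ≤ j → DifferentiableOn ℂ (H.sc j) (Metric.ball 0 κ.ρ)
  sc_t : ∀ j, H.j0 ≤ j → ∀ Y ∈ Metric.ball (0 : ℂ × ℂ × H.Q j) κ.ρ,
    ‖(H.sc j Y).1 - Y.1 / κ.bs‖ ≤ κ.C * (wn Y ^ 2 + ‖Y.2.2‖)
  sc_z : ∀ j, H.j0 ≤ j → ∀ Y ∈ Metric.ball (0 : ℂ × ℂ × H.Q j) κ.ρ,
    ‖(H.sc j Y).2 - Y.2.1 / Real.sqrt (κ.bs * κ.Hq)‖
      ≤ κ.C * (Real.exp (-κ.c * j) * ‖Y.2.1‖ + wn Y ^ 2 + ‖Y.2.2‖)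
  Ψ_an : ∀ j h, H.j0 ≤ j → j < h → DifferentiableOn ℂ (H.Ψ j h) (Metric.ball 0 κ.ρ)
  /-- own contraction, quadratic bound, no linear singleton forcing -/
  Ψ_bd : ∀ j h, H.j0 ≤ j → j < h → ∀ X ∈ Metric.ball (0 : (ℂ × ℂ) × H.T j h) κ.ρ,
    ‖H.Ψ j h X‖ ≤ κ.θ * ‖X.2‖ + κ.C * ‖X‖ ^ 2
  /-- half-period symmetry -/
  σQ_inv : ∀ j q, H.σQ j (H.σQ j q) = q
  σQ_iso : ∀ j q, ‖H.σQ j q‖ = ‖q‖
  σT_inv : ∀ j h q, H.σT j h (H.σT j h q) = q
  σT_iso : ∀ j h q, ‖H.σT j h q‖ = ‖q‖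
  N_par : ∀ j, H.j0 ≤ j → ∀ Y ∈ Metric.ball (0 : ℂ × ℂ × H.Q j) κ.ρ,
    H.N j (parY (H.σQ j) Y) = parY (H.σQ (j + 1)) (H.N j Y)
  sc_par : ∀ j, H.j0 ≤ j → ∀ Y ∈ Metric.ball (0 : ℂ × ℂ × H.Q j) κ.ρ,
    H.sc j (parY (H.σQ j) Y) = ((H.sc j Y).1, -(H.sc j Y).2)
  Ψ_par : ∀ j h, H.j0 ≤ j → j < h → ∀ X ∈ Metric.ball (0 : (ℂ × ℂ) × H.T j h) κ.ρ,
    H.Ψ j h (parX (H.σT j h) X) = H.σT (j + 1) h (H.Ψ j h X)
  /-- pure Gaussian tori: (trj:gaussian-curve) on tori -/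
  G_an : ∀ j h, H.j0 ≤ j → j ≤ h → DifferentiableOn ℂ (H.G j h) (Metric.ball 0 κ.ρ)
  G_bd : ∀ j h, H.j0 ≤ j → j ≤ h → ∀ x : ℂ, ‖x‖ < κ.ρ → ‖H.G j h x‖ ≤ κ.C * ‖x‖ ^ 2
  G_even : ∀ j h, H.j0 ≤ j → j ≤ h → ∀ x : ℂ, ‖x‖ < κ.ρ → H.σT j h (H.G j h x) = H.G j h x
  G_step : ∀ j h, H.j0 ≤ j → j < h → ∀ x : ℂ, ‖x‖ < κ.ρ →
    H.Ψ j h (H.sc j (x, 0, 0), H.G j h x) = H.G (j + 1) h x

/-- the parameter disk `|b - b_c| < c s^{-2}` -/
def disk (κe : EntC) (s : ℕ) : Set ℂ := Metric.ball (xyCritical : ℂ) (κe.c / (s : ℝ) ^ 2)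

/-- [E] P3.1: analytic initialisation -/
structure EntryOK (κ : MapC) (κe : EntC) (ρe : ℝ) (s : ℕ) (H : Hist) : Prop where
  side : κe.q0 * s = κ.L ^ H.j0
  Y0_an : DifferentiableOn ℂ H.Y0 (disk κe s)
  Y0_bd : ∀ b ∈ disk κe s, ‖H.Y0 b‖ ≤ ρe
  T0_an : ∀ h, H.j0 ≤ h → DifferentiableOn ℂ (H.T0 h) (disk κe s)
  T0_bd : ∀ h, H.j0 ≤ h → ∀ b ∈ disk κe s, ‖H.T0 h b‖ ≤ ρe
  /-- real parameters give real scalars, as long as the history stays in the domain -/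
  real : ∀ b : ℝ, (b : ℂ) ∈ disk κe s → ∀ i, (∀ i' < i, ‖H.st b i'‖ < κ.ρ) →
    (H.x b i).im = 0 ∧ (H.y b i).im = 0

/-- `h` is a valid physical stop: `n_h ≥ s P₀`, and the cutoff loss is small -/
def Valid (κ : MapC) (κe : EntC) (s : ℕ) (H : Hist) (h : ℕ) : Prop :=
  H.j0 ≤ h ∧ s * κe.P0 ≤ κ.n h ∧ κe.C * (κ.n h : ℝ) ^ κe.C * Real.exp (-κe.c * (s : ℝ) ^ 2) ≤ 1

/-- the cutoff error `C n^C e^{-c s²}` -/
def cutErr (κ : MapC) (κe : EntC) (s h : ℕ) : ℝ := κe.C * (κ.n h : ℝ) ^ κe.C * Real.exp (-κe.c * (s : ℝ) ^ 2)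

/-- the mixed physical diagnostic `E[cos \bar h e^{w H_n}] - E[cos \bar h] e^{a𝔤 w²/2}`, `a𝔤 = 1/π` ([F] L5.4, second line) -/
def torMix (b : ℝ) (n : ℕ) (w : ℝ) : ℝ :=
  if hn : n = 0 then 0 else
    haveI : NeZero n := ⟨hn⟩
    (torus n).Ex b {((0 : ZMod n), (0 : ZMod n))} (fun h =>
      Real.cos ((n : ℝ)⁻¹ ^ 2 * ∑ v : ZMod n × ZMod n, h v) *
        Real.exp (w * ((n : ℝ)⁻¹ ^ 2 * ∑ v : ZMod n × ZMod n, h v * Real.cos (2 * Real.pi * (v.1.val : ℝ) / n))))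
      - torPhase b n * Real.exp (w ^ 2 / (2 * Real.pi))

/-- [E] P3.3 + L3.4 + L3.5 (+ [F] (trj:mixed-diagnostic), (trj:phase-multiplier), (trj:pure-response)) -/
structure ReadOK (κ : MapC) (κe : EntC) (s : ℕ) (H : Hist) : Prop where
  rV_an : ∀ h, H.j0 ≤ h → DifferentiableOn ℂ (H.rV h) (Metric.ball 0 κ.ρ)
  rP_an : ∀ h, H.j0 ≤ h → DifferentiableOn ℂ (H.rP h) (Metric.ball 0 κ.ρ)
  rV_bd : ∀ h, H.j0 ≤ h → ∀ X ∈ Metric.ball (0 : (ℂ × ℂ) × H.T h h) κ.ρ,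
    ‖H.rV h X - H.kV h * X.1.1‖ ≤ κ.C * (‖X.2‖ + ‖X‖ ^ 2)
  rP_bd : ∀ h, H.j0 ≤ h → ∀ X ∈ Metric.ball (0 : (ℂ × ℂ) × H.T h h) κ.ρ,
    ‖H.rP h X - H.kP h * X.1.2‖ ≤ κ.C * (‖X.2‖ + ‖X‖ ^ 2)
  v0_bd : ∀ h, H.j0 ≤ h → |H.v0 h - 1 / Real.pi| ≤ κ.C * ((s : ℝ) / κ.n h + 1 / (κ.n h : ℝ) ^ 2)
  kV_bd : ∀ h, H.j0 ≤ h → |H.kV h - 1 / Real.pi| ≤ κ.C * ((s : ℝ) / κ.n h + 1 / (κ.n h : ℝ) ^ 2)
  kP_bd : ∀ h, H.j0 ≤ h → |H.kP h - κ.p h| ≤ κ.C * ((s : ℝ) / κ.n h) ^ 2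
  /-- (a) exact representation of the cutoff law -/
  repV : ∀ (b : ℝ) (i : ℕ), (b : ℂ) ∈ disk κe s → Valid κ κe s H (H.j0 + i) → H.Inside κ.ρ b (H.j0 + i) i →
    (H.cV (H.j0 + i) b : ℂ) = H.v0 (H.j0 + i) + H.rV (H.j0 + i) (H.ts b (H.j0 + i) i)
  repP : ∀ (b : ℝ) (i : ℕ), (b : ℂ) ∈ disk κe s → Valid κ κe s H (H.j0 + i) → H.Inside κ.ρ b (H.j0 + i) i →
    (H.cP (H.j0 + i) b : ℂ) = H.rP (H.j0 + i) (H.ts b (H.j0 + i) i)
  /-- (b) comparison with the physical torus, static -/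
  cmpV : ∀ (b : ℝ) (h : ℕ), (b : ℂ) ∈ disk κe s → Valid κ κe s H h →
    |torVar b (κ.n h) - H.cV h b| ≤ κe.C * ((s : ℝ) / κ.n h) ^ 4 + cutErr κ κe s h
  cmpP : ∀ (b : ℝ) (h : ℕ), (b : ℂ) ∈ disk κe s → Valid κ κe s H h →
    |torPhase b (κ.n h) - H.cP h b| ≤ cutErr κ κe s h
  /-- (b') comparison of divided differences -/
  lipV : ∀ (b b' : ℝ) (h : ℕ), (b : ℂ) ∈ disk κe s → (b' : ℂ) ∈ disk κe s → Valid κ κe s H h →
    |(torVar b (κ.n h) - H.cV h b) - (torVar b' (κ.n h) - H.cV h b')|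
      ≤ |b - b'| * (κe.C * (κ.n h : ℝ) ^ 2 * ((s : ℝ) / κ.n h) ^ 4 + cutErr κ κe s h)
  lipP : ∀ (b b' : ℝ) (h : ℕ), (b : ℂ) ∈ disk κe s → (b' : ℂ) ∈ disk κe s → Valid κ κe s H h →
    |(torPhase b (κ.n h) - H.cP h b) - (torPhase b' (κ.n h) - H.cP h b')| ≤ |b - b'| * cutErr κ κe s h
  /-- parity of the read-outs -/
  rV_par : ∀ h, H.j0 ≤ h → ∀ X ∈ Metric.ball (0 : (ℂ × ℂ) × H.T h h) κ.ρ, H.rV h (parX (H.σT h h) X) = H.rV h X
  rP_par : ∀ h, H.j0 ≤ h → ∀ X ∈ Metric.ball (0 : (ℂ × ℂ) × H.T h h) κ.ρ, H.rP h (parX (H.σT h h) X) = -H.rP h X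
  rM_par : ∀ h, H.j0 ≤ h → ∀ X ∈ Metric.ball (0 : (ℂ × ℂ) × H.T h h) κ.ρ, H.rM h (parX (H.σT h h) X) = -H.rM h X
  /-- the mixed diagnostic -/
  rM_an : ∀ h, H.j0 ≤ h → DifferentiableOn ℂ (H.rM h) (Metric.ball 0 κ.ρ)
  rM_bd : ∀ h, H.j0 ≤ h → ∀ X ∈ Metric.ball (0 : (ℂ × ℂ) × H.T h h) κ.ρ,
    ‖H.rM h X - H.kM h * X.1.2‖ ≤ κ.C * (‖X.2‖ + ‖X‖ ^ 2)
  kM_bd : ∀ h, Valid κ κe s H h → κ.c ≤ |H.kM h| ∧ |H.kM h| ≤ κ.C
  repM : ∀ (b : ℝ) (i : ℕ), (b : ℂ) ∈ disk κe s → Valid κ κe s H (H.j0 + i) → H.Inside κ.ρ b (H.j0 + i) i →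
    (H.cM (H.j0 + i) b : ℂ) = H.rM (H.j0 + i) (H.ts b (H.j0 + i) i)
  cmpM : ∀ (b : ℝ) (h : ℕ), (b : ℂ) ∈ disk κe s → Valid κ κe s H h →
    |torMix b (κ.n h) κ.w0 - H.cM h b| ≤ κ.C * ((s : ℝ) / κ.n h) + cutErr κ κe s h
  /-- `cmpV` with a constant which does not depend on the entry parameter -/
  cmpV' : ∀ (b : ℝ) (h : ℕ), (b : ℂ) ∈ disk κe s → Valid κ κe s H h →
    |torVar b (κ.n h) - H.cV h b| ≤ κ.C * ((s : ℝ) / κ.n h) ^ 4 + cutErr κ κe s h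
  /-- the exact variance response of the pure Gaussian tori -/
  G_var : ∀ h, H.j0 ≤ h → ∀ x : ℂ, ‖x‖ < κ.ρ →
    H.rV h (H.sc h (x, 0, 0), H.G h h x) = H.kV h * (x / κ.bs) / (1 - H.pG h * (x / κ.bs))
  pG_bd : ∀ h, H.j0 ≤ h → 0 ≤ H.pG h ∧ H.pG h ≤ 1 ∧ 1 - H.pG h ≤ κ.C * ((κ.L : ℝ) ^ H.j0 / κ.n h) ^ 2

/-- admissible observation sides -/
def Adm (κ : MapC) (κe : EntC) (s : ℕ) : Prop := κe.s0 ≤ s ∧ ∃ j : ℕ, κe.q0 * s = κ.L ^ j

/-- everything about one side -/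
structure SysOK (κ : MapC) (κe : EntC) (ρe : ℝ) (s : ℕ) (H : Hist) : Prop where
  map : MapOK κ H
  entry : EntryOK κ κe ρe s H
  read : ReadOK κ κe s H

/-! **THE RG CONTRACT** ([E] P3.1 + P3.2 + P3.3 + L3.4 + L3.5) `rg_system` (`∃ κ, ∀ δ > 0, ∃ ρe κe H, … ∀ s, Adm κ κe s → SysOK κ κe ρe s (H s)`) is PROVED as `Asm.rg_system'` (`R285/Asm/RawGlue.lean`). -/

/-! ## Physical torus inputs (height side; producers: posts F5 (L5.4), E23 (L2.6), C2) -/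

/-- reference cost of the first cosine, `G_n = ⟨f, A⁺ f⟩ = 1 / (8 n² sin² (π/n)) → 𝔤 = 1/(8π²)` -/
def cosCost (n : ℕ) : ℝ := 1 / (8 * (n : ℝ) ^ 2 * Real.sin (Real.pi / n) ^ 2)

/-- finite-volume analyticity ([E] L2.5) -/
theorem tor_differentiable (n : ℕ) (b : ℝ) (hb : 0 < b) :
    DifferentiableAt ℝ (fun b => torVar b n) b ∧ DifferentiableAt ℝ (fun b => torPhase b n) b :=
  E2.tor_differentiable n b hb

/-- [E] L2.6 (temperature response) on the zero-winding torus, lower bound -/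
theorem tor_response_lower (n : ℕ) (hn : 3 ≤ n) (b : ℝ) (hb : 0 < b) :
    torVar b n ^ 2 / (4 * Real.pi ^ 2 * b ^ 2 * cosCost n) ≤ deriv (fun b => torVar b n) b :=
  E2.tor_response_lower n hn b hb

/-- [E] L2.6, upper bound -/
theorem tor_response_upper (b0 b1 : ℝ) (h0 : 0 < b0) : ∃ C : ℝ, ∀ n : ℕ, 3 ≤ n → ∀ b ∈ Set.Icc b0 b1,
    deriv (fun b => torVar b n) b ≤ C * (n : ℝ) ^ 2 := E2.tor_response_upper b0 b1 h0

/-! `Flow.tor_phase_pos`, `Flow.tor_crit_var`, `Flow.tor_crit_mix`, `Flow.tor_phase_lower` ([F] L5.4, (trj:phase-lower)) use `aLim_critical`, so they live ABOVE `TopC`: see the end of `R285/F5/TorTop.lean` (same names, same namespace). -/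

end

end Claimed.Agent.R285.Flow
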