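import Claimed.Agent.R285.Base.Height

/-!
# ROW 285, CORE DEFS 2: discrete geometries and discrete Gaussian references (owner helper115)

Common vocabulary of the height-side sections ([B]s2-3, [C]s2-4, [S]s2-6, [F]s2-3, [E]s5-6).

## Principle: NO CONTINUUM OBJECT IS EVER DEFINED.
* A "fixed geometry" of the papers (finite union of rectangles, slits, isolations, pin boxes, observation boxes) is a COMBINATORIAL object `CGeom m₁ m₂`: a set `T` of cells of an abstract `m₁ × m₂` array, a set `cutF` of removed coarse faces,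
  a set `pin` of pinned cells, finitely many observation boxes (sets of cells) with weights.
* "the geometry at mesh `1/n`, with coherent roundings" is `CGeom` + `DGrid m₁ m₂` (integer positions of the grid lines).  "along every admissible mesh sequence" := for every sequence `g k : DGrid m₁ m₂` with `Admissible K g ν`
  (all cell sides between `ν k` and `K ν k`, `ν k → ∞`).  The aspect ratios may oscillate: nothing is assumed to converge.
* "the law converges to the Gaussian law with precision `a⁻¹ 𝓔 + |B·|²`" := the DIFFERENCE between the quantity of the height law and the same quantity of the DISCRETE Gaussian reference on the SAME graph tends to zero: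
     log-Laplace of a test `f`            ↔ `gVar a f / 2`
     `- log (Z^{τ,x,c} / Z^0)`            ↔ `gEn a θ c / 2`   (`θ = 2π (τ + ∇x)`)
     pin interaction `D_n(A,A')`          ↔ `gPin a A A'`
  The deterministic facts on the references (convergence to continuum values, scaling covariance, `(2π)⁻¹ log` asymptotics, localisation, determinant expansions, energy approximation [B]L3.12) are a SEPARATE paper-free layer `R285/Pot`
  (discrete potential theory).  Readers: mark such needs by `-- POT:`.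
* Tests: `G.V → ℝ` (row vectors acting on the physical height `2π h`), e.g. `CGeom.avgRow` (cell / box averages) and `HLaw.gradRow` (`∑_e ∇_e h ∇_e u`).

This file contains DEFINITIONS only (no sorry).
-/

set_option autoImplicit false

namespace Claimed.Agent.R285

open Filter Topology
open scoped Classical

noncomputable section

/-! ## 1. Nearest neighbour graphs in `ℤ²` -/

/-- an oriented n.n. bond of `ℤ²`: first endpoint and direction (`true`: to `(x+1,y)`, `false`: to `(x,y+1)`). -/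
abbrev Bond : Type := (ℤ × ℤ) × Bool

/-- the second endpoint -/
def Bond.snd (e : Bond) : ℤ × ℤ := if e.2 then (e.1.1 + 1, e.1.2) else (e.1.1, e.1.2 + 1)

/-- the bonds of the n.n. graph on `D` which are not cut -/
def domBonds (D : Finset (ℤ × ℤ)) (cut : Set Bond) : Finset Bond :=
  (D ×ˢ (Finset.univ : Finset Bool)).filter fun e => e.snd ∈ D ∧ e ∉ cut

theorem domBonds_fst {D : Finset (ℤ × ℤ)} {cut : Set Bond} {e : Bond} (h : e ∈ domBonds D cut) : e.1 ∈ D := by
  have := (Finset.mem_filter.1 h).1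
  exact (Finset.mem_product.1 this).1

theorem domBonds_snd {D : Finset (ℤ × ℤ)} {cut : Set Bond} {e : Bond} (h : e ∈ domBonds D cut) : e.snd ∈ D :=
  (Finset.mem_filter.1 h).2.1

/-- the n.n. graph on the finite set `D ⊂ ℤ²` with the bonds of `cut` removed -/
def domG (D : Finset (ℤ × ℤ)) (cut : Set Bond) : HGraph where
  V := {v : ℤ × ℤ // v ∈ D}
  E := {e : Bond // e ∈ domBonds D cut}
  src e := ⟨e.1.1, domBonds_fst e.2⟩
  tgt e := ⟨e.1.snd, domBonds_snd e.2⟩

/-- position of a vertex of `domG` -/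
def domPos {D : Finset (ℤ × ℤ)} {cut : Set Bond} (v : (domG D cut).V) : ℤ × ℤ := Subtype.val (p := fun v => v ∈ D) v

/-- the bond of an edge of `domG` -/
def domBond {D : Finset (ℤ × ℤ)} {cut : Set Bond} (e : (domG D cut).E) : Bond :=
  Subtype.val (p := fun e => e ∈ domBonds D cut) e

/-- the vertices of `domG` lying in `A ⊂ ℤ²` -/
def domSet {D : Finset (ℤ × ℤ)} {cut : Set Bond} (A : Set (ℤ × ℤ)) : Set (domG D cut).V := {v | domPos v ∈ A}

/-- restriction of a function on `ℤ²` -/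
def domFn {D : Finset (ℤ × ℤ)} {cut : Set Bond} {α : Type} (u : ℤ × ℤ → α) : (domG D cut).V → α := fun v => u (domPos v)

/-- restriction of a function on bonds -/
def domFnE {D : Finset (ℤ × ℤ)} {cut : Set Bond} {α : Type} (τ : Bond → α) : (domG D cut).E → α := fun e => τ (domBond e)

/-! ## 2. Integer product grids -/

/-- an integer product grid with `m₁ × m₂` cells: the positions of the grid lines.  Cell `(i,j)` is `[x₁ i, x₁ (i+1)) × [x₂ j, x₂ (j+1))`. -/
structure DGrid (m₁ m₂ : ℕ) where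
  x₁ : Fin (m₁ + 1) → ℤ
  x₂ : Fin (m₂ + 1) → ℤ
  mono₁ : StrictMono x₁
  mono₂ : StrictMono x₂

namespace DGrid

variable {m₁ m₂ : ℕ} (g : DGrid m₁ m₂)

/-- the sites of a cell -/
def cell (k : Fin m₁ × Fin m₂) : Finset (ℤ × ℤ) :=
  Finset.Ico (g.x₁ k.1.castSucc) (g.x₁ k.1.succ) ×ˢ Finset.Ico (g.x₂ k.2.castSucc) (g.x₂ k.2.succ)

/-- the sites of a union of cells -/
def region (T : Finset (Fin m₁ × Fin m₂)) : Finset (ℤ × ℤ) := T.biUnion g.cell

/-- all cell sides are at least `n` -/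
def SideGe (n : ℕ) : Prop :=
  (∀ i : Fin m₁, (n : ℤ) ≤ g.x₁ i.succ - g.x₁ i.castSucc) ∧ ∀ j : Fin m₂, (n : ℤ) ≤ g.x₂ j.succ - g.x₂ j.castSucc

/-- all cell sides are at most `n` -/
def SideLe (n : ℕ) : Prop :=
  (∀ i : Fin m₁, g.x₁ i.succ - g.x₁ i.castSucc ≤ (n : ℤ)) ∧ ∀ j : Fin m₂, g.x₂ j.succ - g.x₂ j.castSucc ≤ (n : ℤ)

/-- the uniform grid of side `n` with corner at the origin -/
def unif (m₁ m₂ n : ℕ) (hn : 0 < n) : DGrid m₁ m₂ where
  x₁ i := (n : ℤ) * (i.1 : ℤ)
  x₂ j := (n : ℤ) * (j.1 : ℤ)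
  mono₁ := by
    intro i j hij
    have h1 : ((i.1 : ℕ) : ℤ) < (j.1 : ℤ) := by exact_mod_cast hij
    have h2 : (0 : ℤ) < n := by exact_mod_cast hn
    exact mul_lt_mul_of_pos_left h1 h2
  mono₂ := by
    intro i j hij
    have h1 : ((i.1 : ℕ) : ℤ) < (j.1 : ℤ) := by exact_mod_cast hij
    have h2 : (0 : ℤ) < n := by exact_mod_cast hn
    exact mul_lt_mul_of_pos_left h1 h2

end DGrid

/-- an admissible mesh sequence: all sides between `ν k` and `K ν k`, `ν k → ∞`. -/
def Admissible {m₁ m₂ : ℕ} (K : ℕ) (g : ℕ → DGrid m₁ m₂) (ν : ℕ → ℕ) : Prop :=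
  Tendsto ν atTop atTop ∧ ∀ k, (g k).SideGe (ν k) ∧ (g k).SideLe (K * ν k)

/-! ## 3. Combinatorial geometries -/

/-- a fixed geometry: cells, removed coarse faces (`(k,true)`: the face between `k` and its right neighbour, `(k,false)`: between `k` and its upper neighbour), pinned cells, observation boxes. -/
structure CGeom (m₁ m₂ : ℕ) where
  T : Finset (Fin m₁ × Fin m₂)
  cutF : Finset ((Fin m₁ × Fin m₂) × Bool)
  pin : Finset (Fin m₁ × Fin m₂)
  nObs : ℕ
  box : Fin nObs → Finset (Fin m₁ × Fin m₂)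
  wgt : Fin nObs → ℝ

namespace CGeom

variable {m₁ m₂ : ℕ} (Γ : CGeom m₁ m₂) (g : DGrid m₁ m₂)

/-- the bonds crossing a removed coarse face -/
def cutB : Set Bond := {e | ∃ f ∈ Γ.cutF, e.2 = f.2 ∧ e.1 ∈ g.cell f.1 ∧ e.snd ∉ g.cell f.1}

/-- the lattice graph of the geometry on the grid `g` -/
def graph : HGraph := domG (g.region Γ.T) (Γ.cutB g)

/-- the vertices lying in a union of cells -/
def sites (A : Finset (Fin m₁ × Fin m₂)) : Set (Γ.graph g).V :=
  domSet (D := g.region Γ.T) (cut := Γ.cutB g) (↑(g.region A) : Set (ℤ × ℤ))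

/-- the probability average over a union of cells, as a row vector -/
def avgRow (A : Finset (Fin m₁ × Fin m₂)) : (Γ.graph g).V → ℝ :=
  fun v => if v ∈ Γ.sites g A then ((g.region (A ∩ Γ.T)).card : ℝ)⁻¹ else 0

/-- the height law of the geometry: hard zero pins on the pinned cells, penalty `½ ∑_o wgt_o (average of 2π h over box o - c_o)²`. -/
def law : HLaw (Γ.graph g) where
  Λ := HLaw.pinned (Γ.sites g Γ.pin)
  O := Fin Γ.nObs
  B o v := Real.sqrt (Γ.wgt o) * Γ.avgRow g (Γ.box o) v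

/-- two cells of `T` which share an uncut coarse face -/
def Adj (κ κ' : Fin m₁ × Fin m₂) : Prop :=
  κ ∈ Γ.T ∧ κ' ∈ Γ.T ∧
    ((κ.1.1 + 1 = κ'.1.1 ∧ κ.2 = κ'.2 ∧ (κ, true) ∉ Γ.cutF) ∨ (κ.1 = κ'.1 ∧ κ.2.1 + 1 = κ'.2.1 ∧ (κ, false) ∉ Γ.cutF) ∨
     (κ'.1.1 + 1 = κ.1.1 ∧ κ.2 = κ'.2 ∧ (κ', true) ∉ Γ.cutF) ∨ (κ.1 = κ'.1 ∧ κ'.2.1 + 1 = κ.2.1 ∧ (κ', false) ∉ Γ.cutF))

/-- the two cells lie in the same component of the geometry -/
def Conn (κ κ' : Fin m₁ × Fin m₂) : Prop := Relation.ReflTransGen Γ.Adj κ κ'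

/-- **every component is a Lipschitz polygon** (v2, 14:45Z; the name is kept).
(a) NO SLIT: the two cells of a removed coarse face lie in DIFFERENT components (cuts isolate; no slit interior, no slit tip: on a slit domain restrictions of ambient fields are not dense and the papers' proofs do not apply);
(b) NO OPPOSITE-ONLY CONTACT: two diagonal cells of the SAME component are joined at their common vertex through a third cell by uncut faces.
(Diagonal or face contacts of DIFFERENT components are allowed: wall-to-wall cuts, isolated cells.) -/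
def NoDiag : Prop :=
  (∀ κ κ' : Fin m₁ × Fin m₂, κ ∈ Γ.T → κ' ∈ Γ.T →
    ((κ.1.1 + 1 = κ'.1.1 ∧ κ.2 = κ'.2 ∧ (κ, true) ∈ Γ.cutF) ∨ (κ.1 = κ'.1 ∧ κ.2.1 + 1 = κ'.2.1 ∧ (κ, false) ∈ Γ.cutF)) →
    ¬ Γ.Conn κ κ') ∧
  ∀ (i : Fin m₁) (j : Fin m₂) (i' : Fin m₁) (j' : Fin m₂), i.1 + 1 = i'.1 → j.1 + 1 = j'.1 →
    (Γ.Conn (i, j) (i', j') → (i, j) ∈ Γ.T → (i', j') ∈ Γ.T →
      ((i', j) ∈ Γ.T ∧ ((i, j), true) ∉ Γ.cutF ∧ ((i', j), false) ∉ Γ.cutF) ∨
      ((i, j') ∈ Γ.T ∧ ((i, j), false) ∉ Γ.cutF ∧ ((i, j'), true) ∉ Γ.cutF)) ∧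
    (Γ.Conn (i', j) (i, j') → (i', j) ∈ Γ.T → (i, j') ∈ Γ.T →
      ((i, j) ∈ Γ.T ∧ ((i, j), true) ∉ Γ.cutF ∧ ((i, j), false) ∉ Γ.cutF) ∨
      ((i', j') ∈ Γ.T ∧ ((i', j), false) ∉ Γ.cutF ∧ ((i, j'), true) ∉ Γ.cutF))

end CGeom

/-! ## 4. Discrete Gaussian references (any graph, any law) -/

namespace HLaw

variable {G : HGraph} (H : HLaw G)

/-- the real span of the constraint lattice: the space of the real reference field -/
def rspan : Submodule ℝ (G.V → ℝ) :=
  Submodule.span ℝ ((fun h : G.V → ℤ => fun v => (h v : ℝ)) '' (H.Λ : Set (G.V → ℤ)))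

/-- Dirichlet energy with a real connection: `∑_e (∇_e v + θ_e)²` -/
def en (v : G.V → ℝ) (θ : G.E → ℝ) : ℝ := ∑ e, (v (G.tgt e) - v (G.src e) + θ e) ^ 2

/-- value of the observation rows -/
def obs (v : G.V → ℝ) (o : H.O) : ℝ := ∑ x, H.B o x * v x

/-- the reference precision form `a⁻¹ ∑_e (∇_e v)² + |B v|²` -/
def form (a : ℝ) (v : G.V → ℝ) : ℝ := a⁻¹ * en v 0 + ∑ o, H.obs v o ^ 2

/-- the Gaussian cost of a real connection `θ` and observation centres `c`: `min_v a⁻¹ ∑ (∇v + θ)² + |Bv - c|²`.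
Reference for `-2 log (Z^{τ,x,c}/Z^0)` with `θ = 2π (τ + ∇ x)`. -/
def gEn (a : ℝ) (θ : G.E → ℝ) (c : H.O → ℝ) : ℝ :=
  ⨅ v : H.rspan, a⁻¹ * en (v : G.V → ℝ) θ + ∑ o, (H.obs (v : G.V → ℝ) o - c o) ^ 2

/-- the Gaussian variance of the test `f` (row vector): `sup_v 2⟨f,v⟩ - form a v`.  Reference for `2 log E exp⟨f, 2π h⟩` and for the variance.
(Finite iff `f` annihilates the released constants.) -/
def gVar (a : ℝ) (f : G.V → ℝ) : ℝ :=
  ⨆ v : H.rspan, 2 * ∑ x, f x * (v : G.V → ℝ) x - H.form a (v : G.V → ℝ)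

/-- the Gaussian mean of the test `f` in the affine reference law `(θ, c)`, through the polarised cost: `d/ds` at `s = 0` of `gCost`.  Defined by the exact quadratic identity
`gTilt a θ c f = sup_v 2⟨f,v⟩ - a⁻¹ en v θ - |Bv-c|²` so that `log E^{θ,c} e^{⟨f,·⟩} Z^{θ,c}/Z^0 ↔ gTilt / 2`. -/
def gTilt (a : ℝ) (θ : G.E → ℝ) (c : H.O → ℝ) (f : G.V → ℝ) : ℝ :=
  ⨆ v : H.rspan, 2 * ∑ x, f x * (v : G.V → ℝ) x - a⁻¹ * en (v : G.V → ℝ) θ - ∑ o, (H.obs (v : G.V → ℝ) o - c o) ^ 2

/-- the test `h ↦ ∑_e ∇_e h ∇_e u` as a row vector -/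
def gradRow (u : G.V → ℝ) : G.V → ℝ :=
  fun x => ∑ e, (u (G.tgt e) - u (G.src e)) * ((if G.tgt e = x then 1 else 0) - (if G.src e = x then 1 else 0))

/-- the precision matrix of `form a` on all vertices -/
def prec (a : ℝ) : Matrix G.V G.V ℝ :=
  fun x y => a⁻¹ * (∑ e, ((if G.tgt e = x then 1 else 0) - (if G.src e = x then 1 else 0)) *
      ((if G.tgt e = y then (1 : ℝ) else 0) - (if G.src e = y then 1 else 0))) + ∑ o, H.B o x * H.B o y

/-- determinant of the precision matrix on the complement of `A` (Dirichlet condition on `A`) -/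
def detOff (a : ℝ) (A : Set G.V) : ℝ :=
  ((H.prec a).submatrix (fun x : {x : G.V // x ∉ A} => x.1) (fun x : {x : G.V // x ∉ A} => x.1)).det

/-- the Gaussian pin interaction `log [ρ(v_A = 0 | v_{A'} = 0) / ρ(v_A = 0)]` in a law whose own pins are `P`. -/
def gPin (a : ℝ) (P A A' : Set G.V) : ℝ :=
  (Real.log (H.detOff a (P ∪ A)) + Real.log (H.detOff a (P ∪ A')) - Real.log (H.detOff a P)
    - Real.log (H.detOff a (P ∪ A ∪ A'))) / 2

/-- the law with additional hard zero pins on `A` -/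
def addPin (A : Set G.V) : HLaw G := @HLaw.mk G (H.Λ ⊓ HLaw.pinned A) H.O H.fO H.B

/-- a test as an additive map on the image lattice does not always exist; in height variables: the affine expectation -/
def Ex (b : ℝ) (α : H.Aff) (F : (G.V → ℝ) → ℝ) : ℝ := H.Z b α F / H.Z b α fun _ => 1

/-- pairing of a row vector with a physical height -/
def pair (f : G.V → ℝ) (φ : G.V → ℝ) : ℝ := ∑ x, f x * φ x

/-- the shifted-to-centred ratio -/
def ratio (b : ℝ) (α : H.Aff) : ℝ := H.Z b α (fun _ => 1) / H.Z b (Aff.zero H) fun _ => 1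

/-- centred probability of the hard pin event `h_A = 0` -/
def pPin (b : ℝ) (A : Set G.V) : ℝ :=
  (H.addPin A).Z b (Aff.zero (H.addPin A)) (fun _ => 1) / H.Z b (Aff.zero H) fun _ => 1

/-- the pin interaction `D(A,A') = log [μ(h_A = 0 | h_{A'} = 0) / μ(h_A = 0)]` -/
def dPin (b : ℝ) (A A' : Set G.V) : ℝ :=
  Real.log (H.pPin b (A ∪ A')) - Real.log (H.pPin b A) - Real.log (H.pPin b A')

end HLaw

/-! ## 5. Tests on the image lattice -/

namespace HLaw

variable {G : HGraph} (H : HLaw G)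

theorem coordA_mem (b : ℝ) {h : G.V → ℤ} (hh : h ∈ H.Λ) : H.coordA b h ∈ (H.sys b).L :=
  AddSubgroup.mem_map.2 ⟨h, hh, rfl⟩

/-- `X` is the statistic `h ↦ ⟨f, 2π h⟩` read on the image lattice.  A lift exists iff `f` annihilates the released constants ("mean-free on every free component"). -/
def Lift (b : ℝ) (f : G.V → ℝ) (X : (H.sys b).L →+ ℝ) : Prop :=
  ∀ (h : G.V → ℤ) (hh : h ∈ H.Λ), X ⟨H.coordA b h, H.coordA_mem b hh⟩ = ∑ x, f x * (2 * Real.pi * (h x : ℝ))

/-- centred log-Laplace transform of a lifted test -/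
def logLap (b : ℝ) (X : (H.sys b).L →+ ℝ) : ℝ := Real.log ((H.sys b).E0 fun z => Real.exp (X z))

/-- shifted-to-centred ratio in image form (no properness needed) -/
def ratioL (b : ℝ) (α : H.Aff) : ℝ := (H.sys b).w (α.amb b) / (H.sys b).w 0

end HLaw

/-! ## 6. Fixed tests and connections -/

namespace CGeom

variable {m₁ m₂ : ℕ} (Γ : CGeom m₁ m₂)

/-- a fixed test: a fixed linear combination of cell averages -/
def cellTest (g : DGrid m₁ m₂) (t : Fin m₁ × Fin m₂ → ℝ) : (Γ.graph g).V → ℝ :=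
  fun v => ∑ κ, t κ * Γ.avgRow g {κ} v

/-- the integral connection `q` on the bonds crossing the coarse faces of `F` (a sector / a period / a vortex string along grid lines) -/
def faceConn (g : DGrid m₁ m₂) (F : Finset ((Fin m₁ × Fin m₂) × Bool)) (q : ℤ) : (Γ.graph g).E → ℤ :=
  domFnE (D := g.region Γ.T) (cut := Γ.cutB g)
    fun e => if ∃ f ∈ F, e.2 = f.2 ∧ e.1 ∈ g.cell f.1 ∧ e.snd ∉ g.cell f.1 then q else 0

end CGeom

/-! The three MODEL contracts of the first version (`geom_mixed_limit`, `geom_sector`, `geom_pin_interaction`) are DELETED (15:50Z): the real contracts are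
`C3.mixed_tilt / mixed_laplace / mixed_var / mixed_phi / mixed_phase / mixed_rows` ([C]T3.1), `S23.sector_limit(_unif)` ([S]T3.1), `C3.pin_interaction` ([C]T3.2).  This file has no sorry. -/

end

end Claimed.Agent.R285
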